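import Vale.Agent.P073.H304.SpecB

/-!
# P073, block B10: the sharp clauses of the core theorems (ranks 1 and 2, every `p`)

`Deep … A m z S`: the subset `S` of the target is close to the open plate (`A` has two elements) or
to the open edge (`A` has one element) of the grid of generation `m` in the directions `A` at the
corner `z`, and far from its relative boundary.

`SharpOut`:
* `tv` (253's [DEEP] and its twin for plates): on an edge whose image is deep in a tube or in a
  plate, the total variation of all components of `g` is at most `1 + c` times the variation of the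
  tangential components of `h`;
* `face` (237's [SHARP2]): a square face of the set `Y`, whose image is deep in the plate parallel
  to it, and whose sides are nearly monotone for `g` (error `r`), is drawn nearly isometrically
  (error `μ`).
-/

open Set Metric Topology MeasureTheory Filter
open scoped ENNReal

namespace Vale.Agent.P073.H239

open Vale.Agent.P073
open Vale.Agent.P073.St (V)
open Vale.Agent.P073.SQ (ev cube)
open Vale.Agent.P073.H73 (Mesh sqr onSeg)
open Vale.Agent.P073.H304 (IsEdge)
open _root_.P073 (ConHomeo)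
open _root_.P073.Net (IsTile SizeFn)

/-- total variation of the components `A` of `h` on the segment `e` -/
noncomputable def tv (h : V → V) (e : V × V) (A : Finset (Fin 3)) : ℝ≥0∞ :=
  ∑ j ∈ A, eVariationOn (fun t => onSeg h e t j) (Icc 0 1)

/-- The set `S` is within `δ / 2 ^ m` of the plate or edge of the grid of generation `m` (origin
`w`) through the corner `z` with tangential directions `A`, at distance at least `c / 2 ^ m` from its
relative boundary; the tiles around have the same size, the adjacent ones belong to `J₀`. -/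
structure Deep (c δ : ℝ) (w : V) (ρ : V → ℝ) (J₀ : Set (ℕ × (Fin 3 → ℤ))) (A : Finset (Fin 3))
    (m : ℕ) (z : Fin 3 → ℤ) (S : Set V) : Prop where
  tile : ∀ z' : Fin 3 → ℤ, (∀ j, z j - 2 ≤ z' j ∧ z' j ≤ z j + 1) → IsTile ρ w m z'
  act : ∀ z' : Fin 3 → ℤ, (∀ j ∈ A, z' j = z j) → (∀ j ∉ A, z' j = z j ∨ z' j = z j - 1) →
    (m, z') ∈ J₀
  near : ∀ y ∈ S, ∀ j ∉ A, |y j - (w j + z j / 2 ^ m)| ≤ δ / 2 ^ m
  mid : ∀ y ∈ S, ∀ j ∈ A, w j + (z j + c) / 2 ^ m ≤ y j ∧ y j ≤ w j + (z j + 1 - c) / 2 ^ m

/-- distance of the tangential derivatives of `g` to the identity on the square with centre `a`,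
normal `l`, half side `σ`; as in `faceL` there is an additional factor `2 σ` -/
noncomputable def faceI (p : ℝ) (g : V → V) (a : V) (l : Fin 3) (σ : ℝ) : ℝ≥0∞ :=
  ∑ i ∈ Finset.univ.erase l, ∫⁻ x in cube a σ,
    ENNReal.ofReal (‖lineDeriv ℝ g (Function.update x l (a l)) (ev i) - ev i‖ ^ p)

/-- the sharp output; `J₀ = univ` in branch A -/
structure SharpOut {Ω Λ : Set V} (p c δ μ r : ℝ) (w : V) (ρ : V → ℝ) (M : Mesh Ω)
    (h : V → V) (J₀ : Set (ℕ × (Fin 3 → ℤ))) (Y : Set M.κ) (ε : M.κ → ℝ) (g : ConHomeo Ω Λ) :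
    Prop where
  /-- sharp edges -/
  tv : ∀ k e, IsEdge M e → segment ℝ e.1 e.2 ⊆ M.F k → ∀ A : Finset (Fin 3), A.Nonempty →
    A ≠ Finset.univ → ∀ m z, Deep c δ w ρ J₀ A m z (h '' segment ℝ e.1 e.2) →
    tv g.toFun e Finset.univ ≤ ENNReal.ofReal (1 + c) * tv h e A + ENNReal.ofReal (ε k)
  /-- sharp faces: the hypothesis is on the sides `[x, x + 2 σ ev i]` of the square, which are edges
  of the mesh; nearly monotone for `g` with error `r`, and not too long for `h` -/
  face : ∀ k ∈ Y, ∀ (a : V) (l : Fin 3) (σ : ℝ), 0 < σ → M.F k = sqr a l σ →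
    ∀ m z, Deep c δ w ρ J₀ (Finset.univ.erase l) m z (h '' M.F k) →
    (∀ i, i ≠ l → ∀ x : V, x ∈ sqr a l σ → x + (2 * σ) • ev i ∈ sqr a l σ →
      (∀ j, j ≠ i → j ≠ l → |x j - a j| = σ) →
      IsEdge M (x, x + (2 * σ) • ev i) ∧
      (1 - r) * (2 * σ) ≤ g.toFun (x + (2 * σ) • ev i) i - g.toFun x i ∧
      H239.tv g.toFun (x, x + (2 * σ) • ev i) Finset.univ ≤ ENNReal.ofReal ((1 + r) * (2 * σ)) ∧
      H239.tv h (x, x + (2 * σ) • ev i) (Finset.univ.erase l) ≤
        ENNReal.ofReal ((1 + r) * (2 * σ))) →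
    faceI p g.toFun a l σ ≤ ENNReal.ofReal ((μ + ε k) * σ ^ 3)

end Vale.Agent.P073.H239
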