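import Vale.Agent.P073.H235.ConSpec

/-!
# P073, block B10: the output for conical homeomorphisms with three dimensional energies

For `p ≥ 3` the producers of `SpecFlat` deliver a conical homeomorphism of the flat box with
controlled energies in the volume (no squeeze), `ConFlatB`.  Smoothing and a small shift do the rest.
-/

namespace Vale.Agent.P073.H239

open MeasureTheory Set Filter Topology Metric Vale.Agent.P073.LOC Vale.Agent.P073.H235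
open Vale.Agent.P073.St (V Mat)
open Vale.Agent.P073.SQ (ev cube)
open _root_.P073 (ConHomeo)
open scoped ContDiff ENNReal

/-- rank two: the conical output; the middle plane is `x 2 = c`, `|c - θ| ≤ τ` -/
def ConFlatB (p C θ ν τ ε : ℝ) (L : V →L[ℝ] V) (Λ : Set V) (f : V → V) : Prop :=
  ∃ (c : ℝ) (h : ConHomeo (Bx (fl θ)) Λ),
    |c - θ| ≤ τ ∧ BdClose (Bx (fl θ)) (cmp (fl θ) f) h.toFun ∧
    En p h.toFun Finset.univ (Bx (fl θ)) ≤ ENNReal.ofReal (C * θ) ∧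
    En p h.toFun Finset.univ (Bx (fl θ) ∩ Fr (fl θ) (2 * ν) {0, 1}) ≤
      ENNReal.ofReal (C * ν * θ) ∧
    ∑ j ∈ Finset.univ.erase (2 : Fin 3), ∫⁻ x in Bx 1 ∩ Co 1 (ν / 2) {0, 1},
      ENNReal.ofReal (‖lineDeriv ℝ h.toFun (Function.update x 2 c) (ev j) - L (ev j)‖ ^ p) ≤
        ENNReal.ofReal ε

/-- **producer, rank two, any exponent** -/
def SpecConFlatB (p : ℝ) (L : V →L[ℝ] V) : Prop :=
  ∃ C > 0, ∀ ν, 0 < ν → ν ≤ 1 / 4 → ∃ θ₀ > 0, ∀ θ, 0 < θ → θ ≤ θ₀ → ∀ τ > 0, ∀ ε > 0, ∃ κ > 0,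
    ∀ (Λ : Set V) (f : V → V) (F : V → Mat), Near p κ L Λ f F → ConFlatB p C θ ν τ ε L Λ f

/-- **[C1B]** smoothing -/
def SpecC1B : Prop :=
  ∀ p : ℝ, 1 ≤ p → ∃ D > 0, ∀ (C θ ν τ ε : ℝ) (L : V →L[ℝ] V) (Λ : Set V) (f : V → V),
    0 < C → 0 < θ → 0 < ν → ν ≤ 1 / 4 → τ < θ → 0 < ε → St.IsBoundedDomain Λ →
    ContinuousOn f (closure Q1) → ConFlatB p C θ ν τ ε L Λ f →
    ∃ (c : ℝ) (g : V → V), |c - θ| ≤ τ ∧ St.IsDiffeo (Bx (fl θ)) Λ g ∧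
      BdClose (Bx (fl θ)) (cmp (fl θ) f) g ∧
      En p g Finset.univ (Bx (fl θ)) ≤ ENNReal.ofReal (D * C * θ) ∧
      En p g Finset.univ (Bx (fl θ) ∩ Fr (fl θ) (2 * ν) {0, 1}) ≤ ENNReal.ofReal (D * C * ν * θ) ∧
      ∑ j ∈ Finset.univ.erase (2 : Fin 3), ∫⁻ x in Bx 1 ∩ Co 1 (ν / 2) {0, 1},
        ENNReal.ofReal (‖fderiv ℝ g (Function.update x 2 c) (ev j) - L (ev j)‖ ^ p) ≤
          ENNReal.ofReal (D * ε)

/-- **[C5B]** assembly, rank two, any exponent -/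
def SpecC5B : Prop :=
  ∀ (p : ℝ) (L : V →L[ℝ] V), 1 ≤ p → SpecC1B → SpecC3 → SpecConFlatB p L → SpecFlat p L

end Vale.Agent.P073.H239
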