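import Vale.Agent.P073.H239.PlateC

/-!
# P073, block B10 (ALIGN-T0): the collapse of the neighbourhoods of a finite family of plates

**`gc_plates`**: the collapse `T₀` is a generalised collapse; **`invN_plates`**: its inverse is
piecewise affine; **`GC.plates`**: `T₀ ∘ T` is a generalised collapse if `T` is.
-/

open Set Metric Topology Filter WithLp MeasureTheory Matrix

namespace Vale.Agent.P073.H239

open _root_.P073
open _root_.P073.H236 (Supp exists_glue_homeo)
open Vale.Agent.P073.St (V)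
open Vale.Agent.P073.H726 (LBOn)
open Vale.Agent.P073.H851 (M3 bddM)

variable {ι : Type*} {Λ : Set V} {b : ℝ} {l : ι → Fin 3} {lo hi : ι → V} {R : ι → ℝ}

/-- a family of plates with disjoint neighbourhoods in `Λ` -/
structure PFam (Λ : Set V) (b : ℝ) (l : ι → Fin 3) (lo hi : ι → V) (R : ι → ℝ) : Prop where
  b0 : 0 < b
  b1 : b ≤ 1 / 2
  R0 : ∀ z, 0 < R z
  flat : ∀ z, lo z (l z) = hi z (l z)
  sub : ∀ z, bx (lo z) (hi z) (R z) ⊆ Λ
  dis : ∀ z z', z ≠ z' → Disjoint (bx (lo z) (hi z) (R z)) (bx (lo z') (hi z') (R z'))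

open Classical in
/-- **the collapse of the family** (`κ = 0`), the squeeze (`κ > 0`) -/
noncomputable def fam (l : ι → Fin 3) (lo hi : ι → V) (b : ℝ) (R κ : ι → ℝ) (y : V) : V :=
  if h : ∃ z, y ∈ bx (lo z) (hi z) (R z) then
    pm (l h.choose) (lo h.choose) (hi h.choose) b (R h.choose) (κ h.choose) y else y

/-- the union of the kinks -/
def kks (lo hi : ι → V) (R : ι → ℝ) : Set V := ⋃ z, kk (lo z) (hi z) (R z)

variable {κ : ι → ℝ}

theorem fam_off {y : V} (h : ∀ z, y ∉ bx (lo z) (hi z) (R z)) : fam l lo hi b R κ y = y := by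
  unfold fam
  rw [dif_neg]
  push Not
  exact h

namespace PFam

theorem uniq (F : PFam Λ b l lo hi R) {z z' : ι} {y : V} (h : y ∈ bx (lo z) (hi z) (R z))
    (h' : y ∈ bx (lo z') (hi z') (R z')) : z = z' := by
  by_contra hne
  exact Set.disjoint_left.1 (F.dis z z' hne) h h'

theorem fam_eq (F : PFam Λ b l lo hi R) {z : ι} {y : V} (h : y ∈ bx (lo z) (hi z) (R z)) :
    fam l lo hi b R κ y = pm (l z) (lo z) (hi z) b (R z) (κ z) y := by
  have hex : ∃ z, y ∈ bx (lo z) (hi z) (R z) := ⟨z, h⟩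
  unfold fam
  rw [dif_pos hex]
  rw [F.uniq hex.choose_spec h]

theorem fam_eq' (F : PFam Λ b l lo hi R) {z : ι} (H : Num b (R z) (κ z)) {y : V}
    (h : ∀ z', z' ≠ z → y ∉ bx (lo z') (hi z') (R z')) :
    fam l lo hi b R κ y = pm (l z) (lo z) (hi z) b (R z) (κ z) y := by
  by_cases hy : y ∈ bx (lo z) (hi z) (R z)
  · exact F.fam_eq hy
  · rw [(supp_pm H (F.flat z)).id y hy, fam_off]
    intro z' hz'
    by_cases hzz : z' = z
    · rw [hzz] at hz'; exact hy hz'
    · exact h z' hzz hz'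

theorem fam_mem (F : PFam Λ b l lo hi R) (H : ∀ z, Num b (R z) (κ z)) {y : V} (z : ι) :
    fam l lo hi b R κ y ∈ bx (lo z) (hi z) (R z) ↔ y ∈ bx (lo z) (hi z) (R z) := by
  constructor
  · intro h
    by_cases hy : ∃ z', y ∈ bx (lo z') (hi z') (R z')
    · obtain ⟨z', hz'⟩ := hy
      have h1 : fam l lo hi b R κ y ∈ bx (lo z') (hi z') (R z') := by
        rw [F.fam_eq hz']
        exact (supp_pm (H z') (F.flat z')).maps hz'
      rw [F.uniq h h1]; exact hz'
    · push Not at hy
      rwa [fam_off hy] at h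
  · intro h
    rw [F.fam_eq h]
    exact (supp_pm (H z) (F.flat z)).maps h

theorem open_other (_F : PFam Λ b l lo hi R) [Finite ι] (z : ι) :
    IsOpen {y : V | ∀ z', z' ≠ z → y ∉ bx (lo z') (hi z') (R z')} := by
  have : {y : V | ∀ z', z' ≠ z → y ∉ bx (lo z') (hi z') (R z')} =
      ⋂ z', {y | z' ≠ z → y ∉ bx (lo z') (hi z') (R z')} := by ext y; simp
  rw [this]
  refine isOpen_iInter_of_finite fun z' => ?_
  by_cases h : z' = z
  · simp [h]
  · have : {y : V | z' ≠ z → y ∉ bx (lo z') (hi z') (R z')} = (bx (lo z') (hi z') (R z'))ᶜ := by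
      ext y; simp [h]
    rw [this]
    exact isCompact_bx.isClosed.isOpen_compl

theorem open_off (lo hi : ι → V) (R : ι → ℝ) [Finite ι] :
    IsOpen {y : V | ∀ z, y ∉ bx (lo z) (hi z) (R z)} := by
  have : {y : V | ∀ z, y ∉ bx (lo z) (hi z) (R z)} =
      ⋂ z, (bx (lo z) (hi z) (R z))ᶜ := by ext y; simp
  rw [this]
  exact isOpen_iInter_of_finite fun z => isCompact_bx.isClosed.isOpen_compl

theorem mem_other (F : PFam Λ b l lo hi R) {z : ι} {y : V} (h : y ∈ bx (lo z) (hi z) (R z)) :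
    ∀ z', z' ≠ z → y ∉ bx (lo z') (hi z') (R z') := fun _ hz' h' => hz' (F.uniq h' h)

theorem cont (F : PFam Λ b l lo hi R) [Finite ι] (H : ∀ z, Num b (R z) (κ z)) :
    Continuous (fam l lo hi b R κ) := by
  rw [continuous_iff_continuousAt]
  intro x
  by_cases hx : ∃ z, x ∈ bx (lo z) (hi z) (R z)
  · obtain ⟨z, hz⟩ := hx
    have h1 : fam l lo hi b R κ =ᶠ[𝓝 x] pm (l z) (lo z) (hi z) b (R z) (κ z) := by
      filter_upwards [(F.open_other z).mem_nhds (F.mem_other hz)] with y hy
      exact F.fam_eq' (H z) hy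
    exact (pm_cont (H z)).continuousAt.congr h1.symm
  · push Not at hx
    have h1 : fam l lo hi b R κ =ᶠ[𝓝 x] fun y => y := by
      filter_upwards [(open_off lo hi R).mem_nhds hx] with y hy
      exact fam_off hy
    exact continuousAt_id.congr h1.symm

theorem maps (F : PFam Λ b l lo hi R) (H : ∀ z, Num b (R z) (κ z)) :
    MapsTo (fam l lo hi b R κ) Λ Λ := by
  intro y hy
  by_cases h : ∃ z, y ∈ bx (lo z) (hi z) (R z)
  · obtain ⟨z, hz⟩ := h
    exact F.sub z ((F.fam_mem H z).2 hz)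
  · push Not at h
    rw [fam_off h]; exact hy

theorem off (F : PFam Λ b l lo hi R) {y : V} (hy : y ∉ Λ) : fam l lo hi b R κ y = y :=
  fam_off fun z hz => hy (F.sub z hz)

/-- the Lipschitz constant -/
theorem lip (F : PFam Λ b l lo hi R) (H : ∀ z, Num b (R z) (κ z)) (y y' : V) :
    ‖toLp 2 (fam l lo hi b R κ y - fam l lo hi b R κ y')‖ ≤ (1 + 3 * b) * ‖toLp 2 (y - y')‖ := by
  set f := fam l lo hi b R κ with hf
  have hL : (1:ℝ) ≤ 1 + 3 * b := by linarith [F.b0]
  have hid : ∀ z, ∀ x, x ∉ bx (lo z) (hi z) (R z) → pm (l z) (lo z) (hi z) b (R z) (κ z) x = x :=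
    fun z x hx => (supp_pm (H z) (F.flat z)).id x hx
  by_cases hy : ∃ z, y ∈ bx (lo z) (hi z) (R z)
  · obtain ⟨z, hz⟩ := hy
    by_cases hyb : y' ∈ bx (lo z) (hi z) (R z)
    · rw [hf, F.fam_eq hz, F.fam_eq hyb]; exact pm_lip (H z) y y'
    by_cases hy' : ∃ z', y' ∈ bx (lo z') (hi z') (R z')
    · obtain ⟨z', hz'⟩ := hy'
      have hne : z ≠ z' := fun h => hyb (by rw [h]; exact hz')
      have hγ : Continuous fun t : ℝ => AffineMap.lineMap y y' t := AffineMap.lineMap_continuous
      obtain ⟨t, ht, h1, h2⟩ := isPreconnected_closed_iff.1 (isPreconnected_Icc (a := (0:ℝ)) (b := 1))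
        {t : ℝ | pm (l z) (lo z) (hi z) b (R z) (κ z) (AffineMap.lineMap y y' t) =
          AffineMap.lineMap y y' t}
        {t : ℝ | pm (l z') (lo z') (hi z') b (R z') (κ z') (AffineMap.lineMap y y' t) =
          AffineMap.lineMap y y' t}
        (isClosed_eq ((pm_cont (H z)).comp hγ) hγ) (isClosed_eq ((pm_cont (H z')).comp hγ) hγ)
        (fun t _ => by
          by_cases h : AffineMap.lineMap y y' t ∈ bx (lo z) (hi z) (R z)
          · right
            exact hid z' _ fun h' => hne (F.uniq h h')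
          · left
            exact hid z _ h)
        ⟨1, ⟨zero_le_one, le_rfl⟩, by
          show pm (l z) (lo z) (hi z) b (R z) (κ z) (AffineMap.lineMap y y' (1:ℝ)) =
            AffineMap.lineMap y y' (1:ℝ)
          rw [AffineMap.lineMap_apply_one]
          exact hid z _ hyb⟩
        ⟨0, ⟨le_rfl, zero_le_one⟩, by
          show pm (l z') (lo z') (hi z') b (R z') (κ z') (AffineMap.lineMap y y' (0:ℝ)) =
            AffineMap.lineMap y y' (0:ℝ)
          rw [AffineMap.lineMap_apply_zero]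
          exact hid z' _ fun h' => hne (F.uniq hz h')⟩
      simp only [mem_ofPred_eq] at h1 h2
      set w := AffineMap.lineMap y y' t with hw
      have hwi : ∀ k, w k = y k + t * (y' k - y k) := by
        intro k
        rw [hw, AffineMap.lineMap_apply]
        simp only [vsub_eq_sub, vadd_eq_add, Pi.add_apply, Pi.smul_apply, Pi.sub_apply,
          smul_eq_mul]
        ring
      have n1 : toLp 2 (y - w) = t • toLp 2 (y - y') := by
        rw [← toLp_smul]
        congr 1
        ext k; simp only [Pi.sub_apply, Pi.smul_apply, smul_eq_mul, hwi]; ring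
      have n2 : toLp 2 (w - y') = (1 - t) • toLp 2 (y - y') := by
        rw [← toLp_smul]
        congr 1
        ext k; simp only [Pi.sub_apply, Pi.smul_apply, smul_eq_mul, hwi]; ring
      have m1 : ‖toLp 2 (y - w)‖ = t * ‖toLp 2 (y - y')‖ := by
        rw [n1, norm_smul, Real.norm_of_nonneg ht.1]
      have m2 : ‖toLp 2 (w - y')‖ = (1 - t) * ‖toLp 2 (y - y')‖ := by
        rw [n2, norm_smul, Real.norm_of_nonneg (by linarith [ht.2])]
      have e1 := pm_lip (l := l z) (lo := lo z) (hi := hi z) (H z) y w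
      have e2 := pm_lip (l := l z') (lo := lo z') (hi := hi z') (H z') w y'
      rw [h1, m1] at e1
      rw [h2, m2] at e2
      rw [hf, F.fam_eq hz, F.fam_eq hz']
      have e3 : toLp 2 (pm (l z) (lo z) (hi z) b (R z) (κ z) y -
          pm (l z') (lo z') (hi z') b (R z') (κ z') y') =
          toLp 2 (pm (l z) (lo z) (hi z) b (R z) (κ z) y - w) +
          toLp 2 (w - pm (l z') (lo z') (hi z') b (R z') (κ z') y') := by
        rw [← toLp_add]; congr 1; abel
      rw [e3]
      refine (norm_add_le _ _).trans ?_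
      nlinarith
    · push Not at hy'
      rw [hf, F.fam_eq hz, fam_off hy']
      have := pm_lip (l := l z) (lo := lo z) (hi := hi z) (H z) y y'
      rwa [hid z y' hyb] at this
  · push Not at hy
    by_cases hy' : ∃ z', y' ∈ bx (lo z') (hi z') (R z')
    · obtain ⟨z', hz'⟩ := hy'
      rw [hf, fam_off hy, F.fam_eq hz']
      have := pm_lip (l := l z') (lo := lo z') (hi := hi z') (H z') y y'
      rwa [hid z' y (hy z')] at this
    · push Not at hy'
      rw [hf, fam_off hy, fam_off hy']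
      nlinarith [norm_nonneg (toLp 2 (y - y'))]

/-- the squeeze as a homeomorphism -/
theorem exists_homeo (F : PFam Λ b l lo hi R) [Finite ι] (hΛ : IsOpen Λ)
    (H : ∀ z, Num b (R z) (κ z)) (hk : ∀ z, 0 < κ z) :
    ∃ g : ConHomeo Λ Λ, g.toFun = fam l lo hi b R κ := by
  obtain ⟨g, h1, h2, -, -⟩ := exists_glue_homeo hΛ (fun z => ph (H z) (hk z) (l z) (lo z) (hi z))
    (fun z => bx (lo z) (hi z) (R z)) (fun z => supp_pm (H z) (F.flat z)) F.sub
    (fun _ _ => ⟨univ, univ_mem, Set.toFinite _⟩)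
    (fun z z' hne x hx hx' => absurd (F.uniq hx hx') hne)
  refine ⟨g, funext fun y => ?_⟩
  by_cases hy : ∃ z, y ∈ bx (lo z) (hi z) (R z)
  · obtain ⟨z, hz⟩ := hy
    rw [h1 z y hz, ph_toFun, F.fam_eq hz]
  · push Not at hy
    rw [h2 y hy, fam_off hy]

theorem num0 (F : PFam Λ b l lo hi R) (z : ι) : Num b (R z) ((fun _ => (0:ℝ)) z) :=
  ⟨F.b0, F.b1, F.R0 z, le_rfl, one_pos⟩

theorem fam_close (F : PFam Λ b l lo hi R) (H : ∀ z, Num b (R z) (κ z)) {z : ι} {y : V}
    (hz : y ∈ bx (lo z) (hi z) (R z)) :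
    ‖fam l lo hi b R κ y - fam l lo hi b R (fun _ => 0) y‖ ≤ κ z * R z ∧
      (κ z * R z ≤ |fam l lo hi b R (fun _ => 0) y (l z) - lo z (l z)| →
        fam l lo hi b R κ y = fam l lo hi b R (fun _ => 0) y) := by
  rw [F.fam_eq (κ := κ) hz, F.fam_eq (κ := fun _ => 0) hz]
  exact pm_close (H z) y

/-- the projection to the plane is a kink -/
theorem proj_kk (F : PFam Λ b l lo hi R) {z : ι} {u : V} (hu : u ∈ bx (lo z) (hi z) (R z)) :
    Function.update u (l z) (lo z (l z)) ∈ kk (lo z) (hi z) (R z) ∧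
      ‖u - Function.update u (l z) (lo z (l z))‖ ≤ |u (l z) - lo z (l z)| := by
  constructor
  · apply plane_sub_kk (F.flat z)
    · show DD (lo z) (hi z) _ ≤ R z
      rw [DD_eq (F.flat z), Function.update_self, sub_self, abs_zero]
      refine max_le (F.R0 z).le ?_
      rw [dd_congr (y' := u) (fun i hi' => Function.update_of_ne hi' _ _)]
      refine le_trans ?_ hu
      rw [DD_eq (F.flat z)]
      exact le_max_right _ _
    · rw [Function.update_self]
  · rw [pi_norm_le_iff_of_nonneg (abs_nonneg _)]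
    intro i
    by_cases hi' : i = l z
    · subst hi'
      rw [Pi.sub_apply, Function.update_self]
      exact le_rfl
    · rw [Pi.sub_apply, Function.update_of_ne hi', sub_self, norm_zero]
      exact abs_nonneg _

theorem approx_aux (F : PFam Λ b l lo hi R) (H : ∀ z, Num b (R z) (κ z)) {δ : V → ℝ}
    (hδ : LBOn Λ δ) {c : ι → ℝ} (hcδ : ∀ z, ∀ x ∈ bx (lo z) (hi z) (R z), c z ≤ δ x)
    (hκR : ∀ z, κ z * R z ≤ c z) :
    (∀ y ∈ Λ, ‖fam l lo hi b R κ y - fam l lo hi b R (fun _ => 0) y‖ ≤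
      δ (fam l lo hi b R (fun _ => 0) y)) ∧
    ∀ y ∈ Λ, (∀ x ∈ kks lo hi R, δ (fam l lo hi b R (fun _ => 0) y) <
      ‖fam l lo hi b R (fun _ => 0) y - x‖) →
      fam l lo hi b R κ y = fam l lo hi b R (fun _ => 0) y := by
  constructor
  · intro y hy
    by_cases h : ∃ z, y ∈ bx (lo z) (hi z) (R z)
    · obtain ⟨z, hz⟩ := h
      exact (F.fam_close H hz).1.trans ((hκR z).trans (hcδ z _ ((F.fam_mem F.num0 z).2 hz)))
    · push Not at h
      rw [fam_off h, fam_off h, sub_self, norm_zero]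
      exact (hδ.pos hy).le
  · intro y hy hX
    by_cases h : ∃ z, y ∈ bx (lo z) (hi z) (R z)
    · obtain ⟨z, hz⟩ := h
      apply (F.fam_close H hz).2
      have h1 : fam l lo hi b R (fun _ => 0) y ∈ bx (lo z) (hi z) (R z) :=
        (F.fam_mem F.num0 z).2 hz
      obtain ⟨h2, h4⟩ := F.proj_kk h1
      have h3 := hX _ (mem_iUnion.2 ⟨z, h2⟩)
      have h5 := hcδ z _ h1
      have h6 := hκR z
      linarith
    · push Not at h
      rw [fam_off h, fam_off h]

/-- **approximation of the collapse by squeezes** -/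
theorem approx (F : PFam Λ b l lo hi R) [Finite ι] (hΛ : IsOpen Λ) :
    Approx (1 + 3 * b) Λ (kks lo hi R) (fam l lo hi b R fun _ => 0) := by
  intro δ hδ ε hε
  have hc : ∀ z, ∃ c > 0, ∀ x ∈ bx (lo z) (hi z) (R z), c ≤ δ x := fun z =>
    hδ.exists_le isCompact_bx (F.sub z)
  choose c hc0 hcδ using hc
  have hκ0 : ∀ z, 0 < min (1 / 2) (c z / (R z)) := fun z =>
    lt_min (by norm_num) (div_pos (hc0 z) (F.R0 z))
  have H : ∀ z, Num b (R z) (min (1 / 2) (c z / (R z))) := fun z =>
    ⟨F.b0, F.b1, F.R0 z, (hκ0 z).le, (min_le_left _ _).trans_lt (by norm_num)⟩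
  have hκR : ∀ z, min (1 / 2) (c z / (R z)) * R z ≤ c z := fun z => by
    have := F.R0 z
    calc min (1 / 2) (c z / (R z)) * R z ≤ c z / R z * R z := by gcongr; exact min_le_right _ _
      _ = c z := div_mul_cancel₀ _ this.ne'
  obtain ⟨h1, h2⟩ := F.approx_aux H hδ hcδ hκR
  obtain ⟨g, hg⟩ := F.exists_homeo hΛ H hκ0
  refine ⟨g, by rw [hg]; exact F.cont H, fun y hy => by rw [hg]; exact F.off hy,
    fun y hy => by rw [hg]; exact h1 y hy, fun y hy hX => by rw [hg]; exact h2 y hy hX,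
    fun y y' => ?_⟩
  rw [hg]
  refine (F.lip H y y').trans (mul_le_mul_of_nonneg_right (by linarith) (norm_nonneg _))

/-- **the inverse of the collapse is piecewise affine** -/
theorem invN (F : PFam Λ b l lo hi R) [Finite ι] :
    InvN 13 (1 + 2 * b) Λ (kks lo hi R) (fam l lo hi b R fun _ => 0) where
  surj u hu := by
    by_cases h : ∃ z, u ∈ bx (lo z) (hi z) (R z)
    · obtain ⟨z, hz⟩ := h
      obtain ⟨v, hv, hvu⟩ := (supp_pm (F.num0 z) (F.flat z)).surj hz
      exact ⟨v, F.sub z hv, by rw [F.fam_eq hv]; exact hvu⟩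
    · push Not at h
      exact ⟨u, hu, fam_off h⟩
  inv x hx := by
    classical
    by_cases h : ∃ z, x ∈ bx (lo z) (hi z) (R z)
    · obtain ⟨z, hz⟩ := h
      set S := maps13 (l z) (lo z) (hi z) b (R z) with hS
      refine ⟨S.filter fun a => a.1 *ᵥ x - a.2 ∈ Λ, (Finset.card_filter_le _ _).trans
        card_maps13, fun a ha => ?_, ?_⟩
      · rw [Finset.mem_filter] at ha
        exact ⟨maps13_bdd F.b0 F.b1 ha.1, ha.2⟩
      · have hcl : ∀ a ∈ S, a.1 *ᵥ x - a.2 ∉ bx (lo z) (hi z) (R z) →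
            ∀ᶠ u in 𝓝 x, a.1 *ᵥ u - a.2 ∉ bx (lo z) (hi z) (R z) := by
          intro a _ hax
          have hcont : Continuous fun u : V => a.1 *ᵥ u - a.2 :=
            (continuous_const.matrix_mulVec continuous_id).sub continuous_const
          exact hcont.continuousAt.eventually
            (isCompact_bx.isClosed.isOpen_compl.mem_nhds hax)
        have hcl' : ∀ᶠ u in 𝓝 x, ∀ a ∈ S, a.1 *ᵥ x - a.2 ∉ bx (lo z) (hi z) (R z) →
            a.1 *ᵥ u - a.2 ∉ bx (lo z) (hi z) (R z) := by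
          rw [Filter.eventually_all_finset]
          intro a ha
          by_cases hax : a.1 *ᵥ x - a.2 ∉ bx (lo z) (hi z) (R z)
          · filter_upwards [hcl a ha hax] with u hu _ using hu
          · exact Filter.Eventually.of_forall fun u hu => absurd hu hax
        filter_upwards [hcl', (F.open_other z).mem_nhds (F.mem_other hz)] with u h1 h2 huX v hv
        have hvo : ∀ z', z' ≠ z → v ∉ bx (lo z') (hi z') (R z') := fun z' hz' h3 =>
          h2 z' hz' (by rw [← hv]; exact (F.fam_mem F.num0 z').2 h3)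
        rw [F.fam_eq' (F.num0 z) hvo] at hv
        have huk : u ∉ kk (lo z) (hi z) (R z) := fun h3 => huX (mem_iUnion.2 ⟨z, h3⟩)
        obtain ⟨a, ha, hva, hout⟩ := pm_inv_maps (F.num0 z) (F.flat z) hv huk
        refine ⟨a, Finset.mem_filter.2 ⟨ha, ?_⟩, hva⟩
        by_cases hub : u ∈ bx (lo z) (hi z) (R z)
        · have hvb : v ∈ bx (lo z) (hi z) (R z) := by
            rw [← pm_mem_iff (F.num0 z) (F.flat z)]
            rw [hv]; exact hub
          by_contra hcon
          have h3 : a.1 *ᵥ x - a.2 ∉ bx (lo z) (hi z) (R z) := fun h4 => hcon (F.sub z h4)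
          exact h1 a ha h3 (by rw [← hva]; exact hvb)
        · rw [hout hub]
          simpa using hx
    · push Not at h
      refine ⟨{(1, 0)}, by simp, fun a ha => ?_, ?_⟩
      · rw [Finset.mem_singleton.1 ha]
        exact ⟨one_mem_bddM F.b0, by simpa using hx⟩
      · filter_upwards [(open_off lo hi R).mem_nhds h] with u hu _ v hv
        refine ⟨(1, 0), Finset.mem_singleton_self _, ?_⟩
        have hvo : ∀ z, v ∉ bx (lo z) (hi z) (R z) := fun z h3 =>
          hu z (by rw [← hv]; exact (F.fam_mem F.num0 z).2 h3)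
        rw [fam_off hvo] at hv
        rw [hv]; simp

/-- **the collapse of the plates is a generalised collapse** -/
theorem gc (F : PFam Λ b l lo hi R) [Finite ι] (hΛ : IsOpen Λ) (hb : Bornology.IsBounded Λ) :
    GC 36 (1 + 3 * b) (1 + 2 * b) Λ ∅ (kks lo hi R) (fam l lo hi b R fun _ => 0) where
  opn := hΛ
  bdd := hb
  C0 := by linarith [F.b0]
  cont := F.cont F.num0
  lip := F.lip F.num0
  off _ hy := F.off hy
  maps := F.maps F.num0
  Xsub := iUnion_subset fun z => fun _ hu => F.sub z hu.1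
  Xcl := (isClosed_iUnion_of_finite fun _ => isClosed_kk).union hΛ.isClosed_compl
  planes x hx := by
    by_cases h : ∃ z, x ∈ bx (lo z) (hi z) (R z)
    · obtain ⟨z, hz⟩ := h
      obtain ⟨s, hs, hs0, hsk⟩ := kk_planes (lo z) (hi z) (R z)
      refine ⟨s, hs, hs0, ?_⟩
      filter_upwards [(F.open_other z).mem_nhds (F.mem_other hz)] with u hu huX
      obtain ⟨z', hz'⟩ := mem_iUnion.1 huX
      by_cases hzz : z' = z
      · rw [hzz] at hz'; exact hsk u hz'
      · exact absurd hz'.1 (hu z' hzz)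
    · push Not at h
      refine ⟨∅, by simp, by simp, ?_⟩
      filter_upwards [(open_off lo hi R).mem_nhds h] with u hu huX
      obtain ⟨z', hz'⟩ := mem_iUnion.1 huX
      exact absurd hz'.1 (hu z')
  V0X y _ hy := absurd hy (notMem_empty y)
  aff D hD hDc := by
    rcases D.eq_empty_or_nonempty with hD0 | ⟨u₀, hu₀⟩
    · refine ⟨1, one_mem_bddM F.b0, 0, fun y hy => ?_⟩
      rw [hD0] at hy
      exact absurd hy (notMem_empty _)
    have hk : ∀ u ∈ D, ∀ z, u ∉ kk (lo z) (hi z) (R z) := fun u hu z h1 =>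
      (hD hu).2 (mem_iUnion.2 ⟨z, h1⟩)
    by_cases h : ∃ z, u₀ ∈ bx (lo z) (hi z) (R z)
    · obtain ⟨z, hz⟩ := h
      obtain ⟨σ, hσ, p, hp⟩ := exists_pc (F.flat z) hDc
        (Set.disjoint_left.2 fun u hu => hk u hu z) hu₀ hz
      set a := am (l z) (lo z) (hi z) b (R z) σ p with ha
      have hb : a.1 ∈ bddM (1 + 2 * b) := am_mem F.b0 F.b1 hσ p
      have hd : IsUnit a.1.det := isUnit_iff_ne_zero.2 (H851.det_ne_zero_of_bdd hb)
      refine ⟨a.1⁻¹, inv_mem_bddM hb, -(a.1⁻¹ *ᵥ a.2), fun y hy => ?_⟩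
      have hyb : y ∈ bx (lo z) (hi z) (R z) := by
        rw [← F.fam_mem F.num0 z]
        show DD (lo z) (hi z) _ ≤ R z
        rw [DD_pc (hp hy)]
        exact (hp hy).2.1.le
      have hc : ContinuousAt (fam l lo hi b R fun _ => 0) y := (F.cont F.num0).continuousAt
      filter_upwards [hc.eventually (isOpen_pc.mem_nhds (hp hy)),
        (F.open_other z).mem_nhds (F.mem_other hyb)] with y' h1 h2
      have h3 := F.fam_eq' (κ := fun _ => 0) (F.num0 z) h2
      rw [h3] at h1 ⊢
      have h4 := pm_inv_pc (F.num0 z) (F.flat z) hσ h1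
      rw [← ha] at h4
      have h5 : y' + a.2 = a.1 *ᵥ pm (l z) (lo z) (hi z) b (R z) 0 y' := by
        conv_lhs => rw [h4]
        rw [sub_add_cancel]
      rw [sub_neg_eq_add, ← Matrix.mulVec_add, h5, Matrix.mulVec_mulVec,
        Matrix.nonsing_inv_mul _ hd, Matrix.one_mulVec]
    · push Not at h
      refine ⟨1, one_mem_bddM F.b0, 0, fun y hy => ?_⟩
      -- `D` does not meet the boxes
      have h1 : ∀ u ∈ D, ∀ z, u ∉ bx (lo z) (hi z) (R z) := by
        intro u₁ hu₁ z hz
        obtain ⟨u, hu, h2, h3⟩ := isPreconnected_closed_iff.1 hDc (bx (lo z) (hi z) (R z))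
          {u | R z ≤ DD (lo z) (hi z) u} isCompact_bx.isClosed
          (isClosed_le continuous_const DD_cont) (fun u _ => le_total (DD (lo z) (hi z) u) (R z))
          ⟨u₁, hu₁, hz⟩ ⟨u₀, hu₀, by
            have h4 : ¬ DD (lo z) (hi z) u₀ ≤ R z := h z
            exact (not_le.1 h4).le⟩
        exact hk u hu z ⟨h2, Or.inl (le_antisymm h2 h3)⟩
      have hyo : ∀ z, y ∉ bx (lo z) (hi z) (R z) := fun z hz =>
        h1 _ hy z ((F.fam_mem F.num0 z).2 hz)
      filter_upwards [(open_off lo hi R).mem_nhds hyo] with y' hy'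
      rw [fam_off hy', Matrix.one_mulVec, sub_zero]
  approx := F.approx hΛ

end PFam

/-- **[ALIGN-T0]**: after the collapse of the neighbourhoods of a finite family of plates a
generalised collapse is a generalised collapse -/
theorem GC.plates {N : ℕ} {C m : ℝ} {V₀ X : Set V} {T : V → V} (G : GC N C m Λ V₀ X T)
    [Finite ι] (F : PFam Λ b l lo hi R) :
    GC (13 * N + 36) ((1 + 3 * b) * C) ((1 + 2 * b) * m) Λ V₀
      ((fam l lo hi b R fun _ => 0) '' X ∪ kks lo hi R)
      (fun y => fam l lo hi b R (fun _ => 0) (T y)) :=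
  G.comp (F.gc G.opn G.bdd) F.invN (by linarith [F.b0])

end Vale.Agent.P073.H239
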