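import Vale.Agent.P073.H696.BSpec2
import Vale.Agent.P073.H239.PlateD
import Vale.Agent.P073.H239.LocB
import Vale.Agent.P073.H235.R2Parts2
import Vale.Agent.P073.H194.Flat2
import Vale.Agent.P073.H911.Boxes
import Vale.Agent.P073.H190.ConB3

/-!
# P073, block B10: the producer of rank two, `p ≥ 3` (statements)

The chain of block B09 (`H696/BSpec.lean`) for `Ω = Bx (H235.fl θ)`, the compressed map, and the
generalised collapse `T₀ ∘ T`, where `T₀` collapses the neighbourhoods of finitely many plates.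

* `FData`: the data before the theorem `K3C` (extends `H696.R2`);
* `SpecPreF`: they exist;
* `SpecPostF`: `K3C` turns them into `ConFlatB`;
* `specConFlatB_of`: the producer.

Leaves of `SpecPreF`: `SpecVB`, `SpecRectQ`, `SpecBoxAt`, `SpecPlateB`, `SpecTgtF`, `SpecDomL`,
`SpecChain` (the chain of `M1P` for given oracles), `SpecPreFOf` (assembly).
Leaves of `SpecPostF`: `SpecR2F`, `SpecRowsB`, `SpecPostFOf` (assembly).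
-/

open Set Metric Topology Filter MeasureTheory Matrix WithLp
open scoped ENNReal NNReal

namespace Vale.Agent.P073.H239

open Vale.Agent.P073
open Vale.Agent.P073.St (V Mat)
open Vale.Agent.P073.SQ (ev)
open Vale.Agent.P073.LOC (Near Q1 BdClose)
open Vale.Agent.P073.AB (Idx Part pt edge eInt squ FaceOf EdgeOf EdgeOfSq MinSq cl FinDist RatGood)
open Vale.Agent.P073.AB.P86 (sc)
open Vale.Agent.P073.H73 (MinEdge segP ctr onSeg Mesh faceL)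
open Vale.Agent.P073.H194 (sInt cellT Gen partMesh Rg up)
open Vale.Agent.P073.H235 (Bx Fr Co cmp cmpD P2 En rect redge VData VData2 SpecGSet GSet Free NearMon ShortH)
open Vale.Agent.P073.H304 (Nb mid In Out K3C)
open Vale.Agent.P073.H696 (Boxes Tgt Dom St1 R2 nSq HF am Mx IsNear blkS deep)
open Vale.Agent.P073.H726 (LBOn)
open Vale.Agent.P073.H851 (M3 LocLip)
open _root_.P073 (ConHomeo)
open _root_.P073.Net (dyc dyo IsTile SizeFn len)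

/-! ## The data before `K3C` -/

section energy

variable {p Cu : ℝ} {Lc : M3 → ℝ} {δ : ℝ} {j : ℕ} {ε : ℝ} {Ω Λ : Set V} {f : V → V} {F : V → Mat}
  {v : V}

/-- the energy of a passive cube of Round 1 -/
noncomputable def eP (X : R2 p Cu Lc δ j ε Ω Λ f F v) (q : Idx) : ℝ≥0∞ :=
  ENNReal.ofReal (X.Eq q) * (cellT v X.I₁ univ X.H q + nSq v X.I₁ q * X.tol q)

/-- the energy of a box -/
noncomputable def eB (X : R2 p Cu Lc δ j ε Ω Λ f F v) (k : Idx) : ℝ≥0∞ :=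
  ENNReal.ofReal (X.E k) * volume ((⋃ q ∈ {q | q ∈ X.S ∧ dyc v q.1 q.2 ⊆ dyc v k.1 k.2},
    dyc v q.1 q.2) \ deep v X.n (4 * X.c₀ k) k) +
  ‖cl (F (X.x k))‖ₑ ^ p * volume (dyc v k.1 k.2)

/-- the energy of the passive cubes which meet `A` -/
noncomputable def enP (X : R2 p Cu Lc δ j ε Ω Λ f F v) (A : Set V) : ℝ≥0∞ :=
  ∑' q : {q : Idx // q ∈ X.I₁ \ X.S ∧ (dyc v q.1 q.2 ∩ A).Nonempty}, eP X q.1

/-- the energy of the passive cubes and of the boxes which meet `A` -/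
noncomputable def enX (X : R2 p Cu Lc δ j ε Ω Λ f F v) (A : Set V) : ℝ≥0∞ :=
  enP X A + ∑' k : {k : Idx // k ∈ X.K ∧ (dyc v k.1 k.2 ∩ A).Nonempty}, eB X k.1

end energy

/-- the length of the curve `t ↦ h (segment e t)` in the Euclidean norm -/
noncomputable def len2 (h : V → V) (e : V × V) : ℝ≥0∞ :=
  eVariationOn (fun t => (toLp 2 (onSeg h e t) : EuclideanSpace ℝ (Fin 3))) (Icc 0 1)

section pieces

variable {p Cu : ℝ} {Lc : M3 → ℝ} {δ : ℝ} {j : ℕ} {ε : ℝ} {Ω Λ : Set V} {f : V → V} {F : V → Mat}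
  {v : V}

/-- **energies** -/
structure EnB (C θ ν : ℝ) (X : R2 p Cu Lc δ j ε Ω Λ f F v) (nS : ℕ) (a b : Fin 3 → ℤ) :
    Prop where
  bulk : enX X univ ≤ ENNReal.ofReal (C * θ)
  frame : enX X (Fr (H235.fl θ) (2 * ν) {0, 1}) ≤ ENNReal.ofReal (C * ν * θ)
  /-- the cubes which touch the core of the middle plane -/
  layer : enP X (⋃ k ∈ rect a b, squ v ((nS, k), 2)) ≤ ENNReal.ofReal ε

/-- **the middle plane** `x 2 = v 2 + a 2 / 2 ^ nS`, with the core rectangle `[a, b]` -/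
structure PlB (θ ν τ : ℝ) (X : R2 p Cu Lc δ j ε Ω Λ f F v) (nS : ℕ) (a b : Fin 3 → ℤ) :
    Prop where
  alt : a 0 < b 0
  quad : b 1 - a 1 = b 0 - a 0
  size : b 0 - a 0 ≤ 2 ^ nS ∧ (2:ℤ) ^ nS ≤ 2 * (b 0 - a 0)
  mid : |v 2 + a 2 / 2 ^ nS - θ| ≤ τ
  minS : ∀ k ∈ rect a b, MinSq v X.I₁ ((nS, k), 2)
  minE : ∀ i, i ≠ 2 → ∀ k ∈ redge a b i, MinEdge v X.I₁ ((nS, k), i)
  cov : ∀ x ∈ Bx 1 ∩ Co 1 (ν / 2) {0, 1}, ∃ k ∈ rect a b,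
    Function.update x 2 (v 2 + a 2 / 2 ^ nS) ∈ squ v ((nS, k), 2)
  /-- the boxes and the solid cubes are away from the core of the middle plane -/
  offS : ∀ k ∈ rect a b, ∀ q ∈ X.S, Disjoint (dyc v q.1 q.2) (squ v ((nS, k), 2))

/-- **the target near the middle plane.** `mt`: generation of the tiles near the image of the core
rectangle; `G`: good squares; `gg`: the approximation of the collapse. -/
structure TgB (c : ℝ) (X : R2 p Cu Lc δ j ε Ω Λ f F v) (nS : ℕ) (a b : Fin 3 → ℤ) (mt : ℕ)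
    (G : Finset (Fin 3 → ℤ)) (gg : V → V) : Prop where
  mtε : 1 / 2 ^ mt ≤ ε
  /-- `Tt` is close to the identity at the boundary -/
  bdT : ∀ η > 0, ∃ K ⊆ Λ, IsCompact K ∧ ∀ y ∈ Λ, y ∉ K → ‖X.Tt.toFun y - y‖ ≤ η
  tile : ∀ k ∈ rect a b, ∀ x ∈ squ v ((nS, k), 2), ∀ z : Fin 3 → ℤ,
    (∃ y ∈ dyc 0 mt z, ‖X.hh.toFun x - y‖ ≤ 4 / 2 ^ mt) → IsTile X.ρ 0 mt z
  /-- all tiles near the image are processed -/
  act : ∀ k ∈ rect a b, ∀ x ∈ squ v ((nS, k), 2), ∀ z : Fin 3 → ℤ,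
    (∃ y ∈ dyc 0 mt z, ‖X.hh.toFun x - y‖ ≤ 1 / 64 / 2 ^ mt) → (mt, z) ∈ X.J₀
  osc : ∀ k ∈ rect a b, ∀ x ∈ squ v ((nS, k), 2), ∀ y ∈ squ v ((nS, k), 2),
    ‖X.hh.toFun x - X.hh.toFun y‖ ≤ δ / 2 ^ mt ∧
    ‖gg (X.h₁.toFun x) - gg (X.h₁.toFun y)‖ ≤ δ / 2 ^ mt
  Gsub : G ⊆ rect a b
  plate : ∀ k ∈ G, ∃ t : ℤ, ∀ x ∈ squ v ((nS, k), 2), |X.hh.toFun x 2 - t / 2 ^ mt| ≤ δ / 2 ^ mt
  /-- area of the bad squares -/
  area : ENNReal.ofReal (((rect a b \ G).card : ℝ) / 4 ^ nS) ≤ ENNReal.ofReal ε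
  gglip : ∀ y y', ‖toLp 2 (gg y - gg y')‖ ≤ (1 + ε) * ‖toLp 2 (y - y')‖
  ggc : ∀ y ∈ Λ, ‖gg y - y‖ ≤ ε
  far : ∀ k ∈ rect a b, ∀ x ∈ squ v ((nS, k), 2),
    ‖X.hh.toFun x - gg (X.h₁.toFun x)‖ ≤ 2 / 2 ^ mt
  /-- `Tt = gg` in the tangential directions, off the walls of the tiles -/
  tan : ∀ k ∈ G, ∀ x ∈ squ v ((nS, k), 2), ∀ z : Fin 3 → ℤ,
    (∀ i, i ≠ 2 → (z i + c) / 2 ^ mt ≤ gg (X.h₁.toFun x) i ∧
      gg (X.h₁.toFun x) i ≤ (z i + 1 - c) / 2 ^ mt) →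
    ∀ i, i ≠ 2 → X.hh.toFun x i = gg (X.h₁.toFun x) i

/-- **the edges of the middle plane.** `Xe`: the errors -/
structure EdB (X : R2 p Cu Lc δ j ε Ω Λ f F v) (nS : ℕ) (a b : Fin 3 → ℤ)
    (Xe : Idx × Fin 3 → ℝ≥0∞) : Prop where
  /-- Euclidean length of `h₁` -/
  len : ∀ i, i ≠ 2 → ∀ k ∈ redge a b i, H239.len2 X.h₁.toFun (segP v ((nS, k), i)) ≤
      ENNReal.ofReal (1 / 2 ^ nS) + Xe ((nS, k), i)
  /-- displacement of the map -/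
  disp : ∀ i, i ≠ 2 → ∀ k ∈ redge a b i, ENNReal.ofReal (1 / 2 ^ nS -
    (f (segP v ((nS, k), i)).2 i - f (segP v ((nS, k), i)).1 i)) ≤ Xe ((nS, k), i)
  close : ∑ i ∈ Finset.univ.erase (2 : Fin 3), ∑ k ∈ redge a b i,
    ENNReal.ofReal (1 / 2 ^ nS) * (ENNReal.ofReal ((1 / 2 ^ nS) ^ (1 - p)) *
      Xe ((nS, k), i) ^ p) ≤ ENNReal.ofReal ε

end pieces

/-- **The data of block B10.** `Cu`: universal; `δ`, `j`, `c`: from `K3C`; `ε`: all errors. -/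
structure FData (p Cu : ℝ) (Lc : M3 → ℝ) (δ : ℝ) (j : ℕ) (C θ ν τ ε c : ℝ) (Λ : Set V)
    (f : V → V) (F : V → Mat) (v : V) extends
    R2 p Cu Lc δ j ε (Bx (H235.fl θ)) Λ (cmp (H235.fl θ) f) (cmpD (H235.fl θ) F) v where
  nS : ℕ
  a : Fin 3 → ℤ
  b : Fin 3 → ℤ
  mt : ℕ
  G : Finset (Fin 3 → ℤ)
  gg : V → V
  Xe : Idx × Fin 3 → ℝ≥0∞
  en : EnB C θ ν toR2 nS a b
  pl : PlB θ ν τ toR2 nS a b
  tp : TgB c toR2 nS a b mt G gg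
  ed : EdB toR2 nS a b Xe

/-- **[PRE-F]** the data exist. -/
def SpecPreF (p : ℝ) : Prop :=
  ∃ (Cu C : ℝ) (Lc : M3 → ℝ), 1 ≤ Cu ∧ 0 < C ∧ ∀ ν, 0 < ν → ν ≤ 1 / 4 → ∃ θ₀ > 0, ∀ θ, 0 < θ →
    θ ≤ θ₀ → ∀ τ > 0, ∀ (j : ℕ) (δ c ε : ℝ), 7 ≤ j → 0 < δ → 0 < c → 0 < ε → ε ≤ 1 →
    ∃ κ > 0, ∀ (Λ : Set V) (f : V → V) (F : V → Mat), Near p κ P2 Λ f F →
      ∃ v : V, Nonempty (FData p Cu Lc δ j C θ ν τ ε c Λ f F v)

/-- **[POST-F]** -/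
def SpecPostF (p : ℝ) : Prop :=
  K3C p → ∀ Cu : ℝ, 1 ≤ Cu → ∃ D > 0, ∀ (C θ ν : ℝ), 0 < C → 0 < θ → θ ≤ 1 / 2 → 0 < ν →
    ν ≤ 1 / 4 → ∀ ε > 0, ∃ (j : ℕ) (δ c ε' : ℝ), 7 ≤ j ∧ 0 < δ ∧ 0 < c ∧ 0 < ε' ∧ ε' ≤ 1 ∧
    ∀ (Lc : M3 → ℝ) (τ : ℝ) (Λ : Set V) (f : V → V) (F : V → Mat) (v : V),
      Near p 1 P2 Λ f F → τ < θ → FData p Cu Lc δ j C θ ν τ ε' c Λ f F v →
      ConFlatB p (D * C) θ ν τ ε P2 Λ f

theorem conFlatB_mono {p C C' θ ν τ τ' ε ε' : ℝ} {L : V →L[ℝ] V} {Λ : Set V} {f : V → V}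
    (hθ : 0 ≤ θ) (hν : 0 ≤ ν) (hC : C ≤ C') (hτ : τ ≤ τ') (hε : ε ≤ ε')
    (H : ConFlatB p C θ ν τ ε L Λ f) : ConFlatB p C' θ ν τ' ε' L Λ f := by
  obtain ⟨c, h, h1, h2, h3, h4, h5⟩ := H
  refine ⟨c, h, h1.trans hτ, h2, h3.trans (ENNReal.ofReal_le_ofReal ?_),
    h4.trans (ENNReal.ofReal_le_ofReal ?_), h5.trans (ENNReal.ofReal_le_ofReal hε)⟩
  · gcongr
  · gcongr

theorem near_mono {p κ κ' : ℝ} {L : V →L[ℝ] V} {Λ : Set V} {f : V → V} {F : V → Mat}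
    (h : κ ≤ κ') (H : Near p κ L Λ f F) : Near p κ' L Λ f F :=
  ⟨H.dom, H.homeo, H.cont, H.sob, H.near.trans (ENNReal.ofReal_le_ofReal h)⟩

/-- **the producer of rank two, `p ≥ 3`** -/
theorem specConFlatB_of {p : ℝ} (hK : K3C p) (h1 : SpecPreF p) (h2 : SpecPostF p) :
    SpecConFlatB p P2 := by
  obtain ⟨Cu, C, Lc, hCu, hC, H1⟩ := h1
  obtain ⟨D, hD, H2⟩ := h2 hK Cu hCu
  refine ⟨D * C, by positivity, fun ν hν hν4 => ?_⟩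
  obtain ⟨θ₀, hθ₀, H1'⟩ := H1 ν hν hν4
  refine ⟨min θ₀ (1 / 2), by positivity, fun θ hθ hθ' τ hτ ε hε => ?_⟩
  obtain ⟨j, δ, c, ε', hj, hδ, hc, hε', hε1, H2'⟩ := H2 C θ ν hC hθ (hθ'.trans (min_le_right _ _))
    hν hν4 ε hε
  obtain ⟨κ, hκ, H1''⟩ := H1' θ hθ (hθ'.trans (min_le_left _ _)) (min τ (θ / 2))
    (by positivity) j δ c ε' hj hδ hc hε' hε1
  refine ⟨min κ 1, by positivity, fun Λ f F hN => ?_⟩
  obtain ⟨v, ⟨P⟩⟩ := H1'' Λ f F (near_mono (min_le_left _ _) hN)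
  have hlt : min τ (θ / 2) < θ := lt_of_le_of_lt (min_le_right _ _) (by linarith)
  exact conFlatB_mono hθ.le hν.le le_rfl (min_le_left _ _) le_rfl
    (H2' Lc _ Λ f F v (near_mono (min_le_right _ _) hN) hlt P)

/-! ## Oracles and the chain up to Round 2 (also for rank one and for `M1P`) -/

/-- the partition of the domain with local sums -/
structure DomL (Ω : Set V) (v : V) (H : V → ℝ≥0∞) (K : Set Idx) (n N : Idx → ℕ) (r : V → ℝ)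
    (ε : ℝ≥0∞) (tol : Idx → ℝ≥0∞) (r₀ : ℝ) (I : Set Idx) (N' : Idx → ℕ) : Prop extends
    Dom Ω v H K n N r ε tol I N' where
  outL : ∀ A : Set V, ∑' q : {q : Idx // q ∈ I ∧ (∀ k ∈ K, ¬ dyc v q.1 q.2 ⊆ dyc v k.1 k.2) ∧
    (dyc v q.1 q.2 ∩ A).Nonempty}, cellT v I univ H q.1 ≤
      36 * (∫⁻ y in {y | y ∈ Ω ∧ infDist y A ≤ r₀} \ ⋃ k ∈ K, dyc v k.1 k.2, H y) + ε

/-- oracle for the boxes: they avoid `S`; `εB` may be large, `ε` is small -/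
def BoxO (p εB ε M₀ : ℝ) (Ω Λ : Set V) (f : V → V) (F : V → Mat) (v : V) (nn : ℕ → ℕ)
    (S : Set V) : Prop :=
  ∀ (τ : V → ℝ) (c : ℝ≥0∞), Continuous τ → (∀ y, 0 ≤ τ y) → (∀ y, 0 < τ y ↔ y ∈ Λ) → c ≠ 0 →
    ∃ φ : V → ℝ, (∀ x, 0 < φ x) ∧ ∀ (κ μ : V → ℝ) (s : V → ℕ),
    (∀ x, 0 < κ x) → (∀ x, 0 < μ x) → ∃ (K : Set Idx) (x : Idx → V),
      Boxes p εB M₀ c τ φ κ μ s Ω Λ f F v nn K x ∧ (∀ k ∈ K, Disjoint (dyc v k.1 k.2) S) ∧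
      ∑' k : {k : Idx // k ∈ K ∧ M₀ * |(cl (F (x k))).det| < ‖cl (F (x k))‖ ^ p},
        ‖cl (F (x k.1))‖ₑ ^ p * volume (dyc v k.1.1 k.1.2) ≤ ENNReal.ofReal ε

/-- oracle for the target: `Zo` is an exceptional set of the target, `XT` are extra properties -/
def TgtO (Cu : ℝ) (Lc : M3 → ℝ) (Ω Λ : Set V) (ε ε' : ℝ) (j : ℕ) (v : V) (M₀ : ℝ) (Zo : Set V)
    (XT : (V → ℝ) → Set Idx → ConHomeo Λ Λ → (V → ℝ) → Prop) : Prop :=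
  ∃ (τ : V → ℝ) (c : ℝ≥0∞), (Continuous τ ∧ (∀ y, 0 ≤ τ y) ∧ (∀ y, 0 < τ y ↔ y ∈ Λ) ∧ c ≠ 0) ∧
    ∀ (B : Type) (A : B → M3) (b : B → V) (D D' : B → Set V) (α W : B → ℝ≥0∞) (δt : V → ℝ),
      (∀ k, (A k).det ≠ 0) →
      (∀ k, IsCompact (D k) ∧ IsCompact (D' k) ∧ D' k ⊆ interior (D k)) →
      (∀ k, (fun x => A k *ᵥ x + b k) '' D k ⊆ Λ) →
      (∀ k l, k ≠ l → Disjoint ((fun x => A k *ᵥ x + b k) '' D k)
        ((fun x => A l *ᵥ x + b l) '' D l)) →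
      (∀ C ⊆ Λ, IsCompact C → {k | ((fun x => A k *ᵥ x + b k) '' D k ∩ C).Nonempty}.Finite) →
      ∫⁻ y in Λ \ ⋃ k, (fun x => A k *ᵥ x + b k) '' D' k, ENNReal.ofReal (1 / τ y) ^ 3 ≤ c →
      (∀ k, α k ≠ ⊤) → (∀ k, W k ≠ ⊤) →
      ∑' k : {k : B // ENNReal.ofReal (M₀ * |(A k).det|) < α k}, α k.1 * volume (D k.1) ≤
        ENNReal.ofReal ε →
      ∑' k, α k * volume {x | x ∈ D k ∧ A k *ᵥ x + b k ∈ Zo} ≤ ENNReal.ofReal ε →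
      LBOn Λ δt →
      ∃ (ρ : V → ℝ) (J₀ J : Set Idx) (κ : Idx → B) (n : Idx → ℕ) (w : Idx → Fin 3 → ℤ)
        (Act Core CoreN : Set V) (Tt : ConHomeo Λ Λ) (r' : V → ℝ),
        Tgt Cu Lc Λ ε' (1 / 2 ^ j) A b D α W δt v ρ J₀ J κ n w Act Core CoreN Tt ∧
        LBOn Ω r' ∧ XT ρ J₀ Tt r'

/-- oracle for the domain: `XD` are extra properties of the partition; the generations `N' k` of
the cubes near the boxes are generic -/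
def DomO (Ω : Set V) (v : V) (nn : ℕ → ℕ) (H : V → ℝ≥0∞) (S : Set V) (r₀ : ℝ)
    (XD : Set Idx → Prop) : Prop :=
  ∀ (K : Set Idx) (n N : Idx → ℕ) (r : V → ℝ) (ε : ℝ≥0∞) (tol : Idx → ℝ≥0∞),
    (∀ k ∈ K, dyc v k.1 k.2 ⊆ Ω ∧ k.1 + 2 ≤ n k ∧ n k + 2 ≤ N k) →
    (∀ k ∈ K, ∀ k' ∈ K, k ≠ k' → Disjoint (dyo v k.1 k.2) (dyo v k'.1 k'.2)) →
    (∀ C ⊆ Ω, IsCompact C → {k ∈ K | (dyc v k.1 k.2 ∩ C).Nonempty}.Finite) →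
    (∀ k ∈ K, Disjoint (dyc v k.1 k.2) S) → LBOn Ω r → ε ≠ 0 → (∀ k, tol k ≠ 0) →
    ∃ (I : Set Idx) (N' : Idx → ℕ), DomL Ω v H K n N r ε tol r₀ I N' ∧
      (∀ k ∈ K, N' k ∈ range nn) ∧ XD I

/-- The output of the chain: data of Round 2 with the extra properties, local energies, and the
edges and closeness off the boxes. -/
structure ChOut {p Cu : ℝ} {Lc : M3 → ℝ} {δ : ℝ} {j : ℕ} {ε : ℝ} {Ω Λ : Set V} {f : V → V}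
    {F : V → Mat} {v : V} (C ε₂ b r₀ : ℝ) (S : Set V)
    (XT : (V → ℝ) → Set Idx → ConHomeo Λ Λ → (V → ℝ) → Prop) (XD : Set Idx → Prop)
    (X : R2 p Cu Lc δ j ε Ω Λ f F v) (I : Set Idx) (k₁ : Idx → ℕ) (r' : V → ℝ) : Prop where
  xt : XT X.ρ X.J₀ X.Tt r'
  small : ∀ a ∈ Ω, X.δs a ≤ r' a
  xd : XD I
  eq : X.I₁ = H696.part1 v X.K X.n k₁ I
  off : ∀ k ∈ X.K, Disjoint (dyc v k.1 k.2) S
  /-- local energies -/
  en : ∀ A : Set V, enX X A ≤ ENNReal.ofReal C *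
    (∫⁻ y in {y | y ∈ Ω ∧ infDist y A ≤ r₀}, HF p Ω F y) + ENNReal.ofReal ε₂
  /-- closeness off the boxes -/
  close : ∀ y ∈ Ω, (∀ k ∈ X.K, y ∉ dyc v k.1 k.2) → ‖X.h₁.toFun y - f y‖ ≤ b
  /-- edges which do not touch the boxes -/
  edge : ∀ e, MinEdge v X.I₁ e → (∀ k ∈ X.K, Disjoint (edge v e) (dyc v k.1 k.2)) →
    eInt v e (fun x => ENNReal.ofReal ‖lineDeriv ℝ X.h₁.toFun x (ev e.2) -
      cl (F x) (ev e.2)‖) ≤ ENNReal.ofReal (b / 2 ^ e.1.1)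

/-- **[CHAIN]** the chain of block B09 up to Round 2, for a given generic origin and for given
oracles (696, 950). `K3C` is used for Round 1. The energies are estimated locally. -/
def SpecChain (p : ℝ) : Prop :=
  K3C p → ∃ C : ℝ, 1 ≤ C ∧ ∀ (Cu δ : ℝ) (Lc : M3 → ℝ) (j : ℕ), 1 ≤ Cu → (∀ M, 1 ≤ Lc M) →
    0 < δ → 7 ≤ j → ∀ (Ω Λ : Set V) (f : V → V) (F : V → Mat) (v : V) (nn : ℕ → ℕ)
    (εB ε ε' ε₂ M₀ b r₀ : ℝ) (S Zo : Set V)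
    (XT : (V → ℝ) → Set Idx → ConHomeo Λ Λ → (V → ℝ) → Prop) (XD : Set Idx → Prop),
    St.IsBoundedDomain Ω → St.IsBoundedDomain Λ → St.IsHomeo Ω Λ f → St.IsSobolev p Ω f F →
    RatGood v Ω f F → StrictMono nn → Gen v nn (HF p Ω F) →
    0 < ε → ε ≤ ε' → ε' ≤ 1 → 0 < ε₂ → 0 < M₀ → 0 < b → 0 < r₀ → S ⊆ Ω → IsCompact S →
    (∃ r > 0, ∫⁻ x in {x | x ∈ Ω ∧ ∃ y ∈ Zo, ‖f x - y‖ ≤ r}, HF p Ω F x ≤
      ENNReal.ofReal (ε / C)) →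
    BoxO p εB ε M₀ Ω Λ f F v nn S →
    TgtO Cu Lc Ω Λ ε ε' j v M₀ Zo XT →
    DomO Ω v nn (HF p Ω F) S r₀ XD →
    ∃ (X : R2 p Cu Lc δ j ε' Ω Λ f F v) (I : Set Idx) (k₁ : Idx → ℕ) (r' : V → ℝ),
      ChOut C ε₂ b r₀ S XT XD X I k₁ r'

/-! ## Leaves of `SpecPreF` -/

/-- **(F1) [VB]** generic origin for the middle plane and for the boxes (16, 523) -/
def SpecVB : Prop :=
  ∀ (p C₀ : ℝ), 1 ≤ p → SpecGSet C₀ → ∀ (θ κ : ℝ) (m₀ : ℕ), 0 < θ → θ ≤ 1 / 2 → 0 < κ →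
    ∃ κ' > 0, ∀ (Λ : Set V) (f : V → V) (F : V → Mat), Near p κ' P2 Λ f F →
      St.IsHomeo (Bx (H235.fl θ)) Λ (cmp (H235.fl θ) f) ∧
      St.IsSobolev p (Bx (H235.fl θ)) (cmp (H235.fl θ) f) (cmpD (H235.fl θ) F) ∧
      ∃ D : VData2 p C₀ θ κ m₀ Λ f F,
        Gen D.v D.nn (HF p (Bx (H235.fl θ)) (cmpD (H235.fl θ) F)) ∧
        ∀ᵐ x ∂(volume : Measure V), x ∈ Bx (H235.fl θ) →
          H911.OwnPt p (cmpD (H235.fl θ) F) D.v D.nn x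

/-- the core rectangle of generation `m₀`, with the same number of squares in both directions -/
def SpecRectQ : Prop :=
  ∀ (ν θ : ℝ) (v : V) (m : ℕ) (B : ℤ), 0 < ν → ν ≤ 1 / 4 → 0 < θ → 1 / 2 ^ m ≤ ν / 16 →
    1 / 2 ^ m ≤ θ / 2 → |v 2 + B / 2 ^ m - θ| ≤ 1 / 2 ^ m →
    ∃ α β : Fin 3 → ℤ, α 2 = B ∧ α 0 < β 0 ∧ β 1 - α 1 = β 0 - α 0 ∧
      (β 0 - α 0 ≤ 2 ^ m ∧ (2:ℤ) ^ m ≤ 2 * (β 0 - α 0)) ∧ Rg v m α β ⊆ Bx (H235.fl θ) ∧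
      (rect α β).card ≤ 4 ^ m ∧
      ∀ x ∈ Bx 1 ∩ Co 1 (ν / 2) {0, 1}, ∀ j, j ≠ 2 →
        v j + α j / 2 ^ m ≤ x j ∧ x j ≤ v j + β j / 2 ^ m

/-- **(F2) [BOX-AT]** the boxes for a given origin, with an avoided null set, without finite
distortion (911). `εB` bounds the energy of the points with `det = 0`. -/
def SpecBoxAt (p : ℝ) : Prop :=
  ∀ (Ω Λ : Set V) (f : V → V) (F : V → Mat) (v : V) (nn : ℕ → ℕ), St.IsBoundedDomain Ω →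
    St.IsBoundedDomain Λ → St.IsHomeo Ω Λ f → St.IsSobolev p Ω f F → StrictMono nn →
    RatGood v Ω f F → Gen v nn (HF p Ω F) →
    (∀ᵐ x ∂(volume : Measure V), x ∈ Ω → H911.OwnPt p F v nn x) →
    ∀ S ⊆ Ω, IsCompact S → volume S = 0 → ∀ ε > 0, ∃ εB > 0, ∃ M₀ > 0,
      BoxO p εB ε M₀ Ω Λ f F v nn S

/-- **(F3) [PLATE-B]** the choice of the plates (407). As `H235.SpecPlateT`, with the family
`PFam` instead of the homeomorphism; `ε₁`: the neighbourhoods are close to the image. -/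
def SpecPlateB : Prop :=
  ∀ C₀ ε b : ℝ, 0 < C₀ → 0 < ε → 0 < b → b ≤ 1 / 2 → ∃ κ > 0, ∀ (Ω Λ : Set V) (f : V → V)
    (H : V → ℝ≥0∞) (v : V) (m₀ : ℕ) (S₀ : Finset (Fin 3 → ℤ)) (B : ℤ), IsOpen Ω → IsOpen Λ →
    St.IsHomeo Ω Λ f → GSet C₀ v Ω f H →
    (∀ k ∈ S₀, k 2 = B ∧ squ v ((m₀, k), 2) ⊆ Ω) → S₀.card ≤ 4 ^ m₀ →
    ∑ k ∈ S₀, sInt v ((m₀, k), 2) H ≤ ENNReal.ofReal κ → ∀ ε₁ > 0,
    ∃ n₀ : ℕ, ∀ n₃ ≥ n₀, ∃ (G : Finset (Fin 3 → ℤ)) (j₀ : ℕ),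
      (∀ k ∈ G, ∃ k₀ ∈ S₀, squ v ((n₃, k), 2) ⊆ squ v ((m₀, k₀), 2)) ∧
      (S₀.card : ℝ) / 4 ^ m₀ - (G.card : ℝ) / 4 ^ n₃ ≤ ε ∧
      ∀ jt ≥ j₀, ∃ (ι : Type) (_ : Finite ι) (lo hi : ι → V) (R : ι → ℝ) (r : ℝ), 0 < r ∧
        PFam Λ b (fun _ => 2) lo hi R ∧ (∀ z, R z ≤ ε₁) ∧
        (∀ z, ∃ t : ℤ, lo z 2 = t / 2 ^ jt) ∧
        (∀ z, ∀ y ∈ bx (lo z) (hi z) (R z), ∃ k ∈ S₀, ∃ x ∈ squ v ((m₀, k), 2),
          ‖y - f x‖ ≤ ε₁) ∧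
        ∀ k ∈ G, ∃ z, ∀ x ∈ squ v ((n₃, k), 2), ∀ y, ‖y - f x‖ ≤ r →
          |y 2 - lo z 2| ≤ b * (R z - dd 2 (lo z) (hi z) y) - r

/-- the properties of the total target homeomorphism near the plates. `Kc`: a compact set where all
tiles have the same generation `mt` -/
structure TgtP {ι : Type} (c ε b : ℝ) (lo hi : ι → V) (R : ι → ℝ) (r : ℝ) (Kc Λ : Set V)
    (ρ : V → ℝ) (mt : ℕ) (gg Tt : V → V) : Prop where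
  lip : ∀ y y', ‖toLp 2 (gg y - gg y')‖ ≤ (1 + ε) * ‖toLp 2 (y - y')‖
  close : ∀ y ∈ Λ, ‖gg y - y‖ ≤ ε
  far : ∀ y ∈ Kc, ‖Tt y - gg y‖ ≤ 2 / 2 ^ mt
  mtε : 1 / 2 ^ mt ≤ ε
  /-- `Tt` is close to the identity at the boundary -/
  bdT : ∀ η > 0, ∃ K ⊆ Λ, IsCompact K ∧ ∀ y ∈ Λ, y ∉ K → ‖Tt y - y‖ ≤ η
  grid : ∀ z, ∃ t : ℤ, lo z 2 = t / 2 ^ mt
  tile : ∀ y ∈ Kc, ∀ z : Fin 3 → ℤ, (∃ u ∈ dyc 0 mt z, ‖Tt y - u‖ ≤ 4 / 2 ^ mt) → IsTile ρ 0 mt z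
  plate : ∀ z, ∀ y ∈ Kc, |y 2 - lo z 2| ≤ b * (R z - dd 2 (lo z) (hi z) y) - r →
    |Tt y 2 - lo z 2| ≤ c / 2 ^ mt ∧
    ∀ w : Fin 3 → ℤ, (∀ i, i ≠ 2 → (w i + c) / 2 ^ mt ≤ gg y i ∧ gg y i ≤ (w i + 1 - c) / 2 ^ mt) →
      ∀ i, i ≠ 2 → Tt y i = gg y i

/-- **(F4) [TGT-F]** the target with plates (851): the proof of `H696.SpecTgt` for the
generalised collapse `T₀ ∘ T` of `GC.plates`. -/
def SpecTgtF : Prop :=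
  ∃ (Cu : ℝ) (Lc : M3 → ℝ), 1 ≤ Cu ∧ (∀ M, 1 ≤ Lc M) ∧ ∀ ε > 0, ∃ b₀ > 0,
    ∀ (Ω Λ : Set V), St.IsBoundedDomain Λ → ∀ (ι : Type) (_ : Finite ι)
      (lo hi : ι → V) (R : ι → ℝ) (b r c : ℝ) (jt : ℕ) (Kc : Set V), b ≤ b₀ →
      PFam Λ b (fun _ => 2) lo hi R → (∀ z, R z ≤ ε) → 0 < r → 0 < c → Kc ⊆ Λ →
      IsCompact Kc → (∀ z, ∃ t : ℤ, lo z 2 = t / 2 ^ jt) → ∀ M₀ > 0, ∀ (j : ℕ) (v : V), 2 ≤ j →
      TgtO Cu Lc Ω Λ ε (3 * ε) j v M₀ (⋃ z, bx (lo z) (hi z) (R z)) fun ρ _ Tt r' =>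
        ∃ (mt : ℕ) (gg : V → V), (∀ a, r' a = c / 2 ^ mt) ∧
          TgtP c (3 * ε) b lo hi R r Kc Λ ρ mt gg Tt.toFun

/-- **(F5) [DOM-L]** the partition of the domain with local sums and a given generation at the
compact set `S` (194) -/
def SpecDomL : Prop :=
  ∀ (Ω : Set V) (v : V) (nn : ℕ → ℕ) (H : V → ℝ≥0∞) (S : Set V) (r₀ : ℝ) (N₁ : ℕ),
    St.IsBoundedDomain Ω → StrictMono nn → Gen v nn H → ∫⁻ y, H y ≠ ⊤ → 0 < r₀ → S ⊆ Ω →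
    IsCompact S → DomO Ω v nn H S r₀ fun I =>
      ∃ nS, N₁ ≤ nS ∧ nS ∈ range nn ∧ ∀ x ∈ S, ∀ q ∈ I, x ∈ dyc v q.1 q.2 → q.1 = nS

/-- **(F9) [PRE-F]** the assembly -/
def SpecPreFOf (p : ℝ) : Prop :=
  SpecVB → SpecRectQ → SpecBoxAt p → SpecPlateB → SpecTgtF → SpecDomL → K3C p → SpecChain p →
    SpecPreF p

/-! ## Leaves of `SpecPostF` -/

section post

variable {p Cu : ℝ} {Lc : M3 → ℝ} {δ : ℝ} {j : ℕ} {C θ ν τ ε c : ℝ} {Λ : Set V} {f : V → V}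
  {F : V → Mat} {v : V}

/-- the faces of the mesh which are squares of the core of the middle plane -/
def FData.Y (X : FData p Cu Lc δ j C θ ν τ ε c Λ f F v) {M : Mesh (Bx (H235.fl θ))} : Set M.κ :=
  {k | ∃ z ∈ rect X.a X.b, M.F k = squ v ((X.nS, z), 2)}

/-- **The auxiliary function** of the sharp faces (`H212.AuxOut` in dyadic form): closeness, edges
and sharp edges -/
structure FAux (X : FData p Cu Lc δ j C θ ν τ ε c Λ f F v) (D c₀ β : ℝ) (q : V → V) : Prop where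
  close : ∀ k ∈ rect X.a X.b, ∀ x ∈ squ v ((X.nS, k), 2), ‖q x - X.toR2.hh.toFun x‖ ≤ D / 2 ^ X.mt
  /-- length of the edges of the plane -/
  len : ∀ i, i ≠ 2 → ∀ k ∈ redge X.a X.b i,
    len (onSeg q (segP v ((X.nS, k), i))) (Icc 0 1) ≤
      ENNReal.ofReal (D * Cu) * len (onSeg X.h₁.toFun (segP v ((X.nS, k), i))) (Icc 0 1) +
        ENNReal.ofReal (β / 2 ^ X.nS)
  /-- sharp edges -/
  tv : ∀ k ∈ X.G, Free c₀ v X.nS X.mt X.toR2.hh.toFun k → ∀ e : Idx × Fin 3,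
    EdgeOfSq e ((X.nS, k), 2) → H239.tv q (segP v e) Finset.univ ≤
      ENNReal.ofReal (1 + c₀) * H239.tv X.toR2.hh.toFun (segP v e) (Finset.univ.erase 2) +
        ENNReal.ofReal (β / 2 ^ X.nS)

/-- **The output of Round 2 in dyadic form.** `D`, `D'`, `μ`, `r`: constants of `K3C`; `c₀`: the
zone of `K3C` and the margin of the sharp clauses; `K`: depends on `p`, `Cu` only. -/
structure FOut (X : FData p Cu Lc δ j C θ ν τ ε c Λ f F v) (K D D' μ r c₀ β : ℝ)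
    (g : ConHomeo (Bx (H235.fl θ)) Λ) : Prop where
  bd : BdClose (Bx (H235.fl θ)) (cmp (H235.fl θ) f) g.toFun
  /-- local energies -/
  en : ∀ A : Set V, ∫⁻ x in Bx (H235.fl θ) ∩ A, ENNReal.ofReal (‖fderiv ℝ g.toFun x‖ ^ p) ≤
    ENNReal.ofReal (K * D) * enX X.toR2 A +
      ENNReal.ofReal (K * D') * enP X.toR2 (⋃ k ∈ rect X.a X.b, squ v ((X.nS, k), 2)) +
      ENNReal.ofReal (K * D * β)
  close : ∀ k ∈ rect X.a X.b, ∀ x ∈ squ v ((X.nS, k), 2),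
    ‖g.toFun x - X.toR2.hh.toFun x‖ ≤ D / 2 ^ X.mt
  /-- length of the edges of the plane -/
  len : ∀ i, i ≠ 2 → ∀ k ∈ redge X.a X.b i,
    len (onSeg g.toFun (segP v ((X.nS, k), i))) (Icc 0 1) ≤
      ENNReal.ofReal (D * Cu) * len (onSeg X.h₁.toFun (segP v ((X.nS, k), i))) (Icc 0 1) +
        ENNReal.ofReal (β / 2 ^ X.nS)
  /-- energy of the squares of the plane -/
  face : ∀ k ∈ rect X.a X.b, faceL p g.toFun (sc v ((X.nS, k), 2)) 2 (1 / 2 / 2 ^ X.nS) ≤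
    ENNReal.ofReal (K * D' * (1 / 2 ^ X.nS) ^ 2) *
      ∑' e : {e : Idx × Fin 3 // EdgeOfSq e ((X.nS, k), 2)},
        ENNReal.ofReal ((1 / 2 ^ X.nS) ^ (1 - p)) *
          (H239.len2 X.h₁.toFun (segP v e.1) + ENNReal.ofReal (β / 2 ^ X.nS)) ^ p
  /-- sharp edges -/
  tv : ∀ k ∈ X.G, Free c₀ v X.nS X.mt X.toR2.hh.toFun k → ∀ e : Idx × Fin 3,
    EdgeOfSq e ((X.nS, k), 2) → H239.tv g.toFun (segP v e) Finset.univ ≤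
      ENNReal.ofReal (1 + c₀) * H239.tv X.toR2.hh.toFun (segP v e) (Finset.univ.erase 2) +
        ENNReal.ofReal (β / 2 ^ X.nS)
  /-- sharp faces: nearly monotone for `g` and for an auxiliary function `q` -/
  aux : ∃ q : V → V, FAux X D c₀ β q ∧
    ∀ k ∈ X.G, Free c₀ v X.nS X.mt X.toR2.hh.toFun k → NearMon r v X.nS g.toFun k →
    NearMon r v X.nS q k → ShortH r v X.nS X.toR2.hh.toFun k →
    H239.faceI p g.toFun (sc v ((X.nS, k), 2)) 2 (1 / 2 / 2 ^ X.nS) ≤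
      ENNReal.ofReal ((μ + β) * (1 / 2 ^ X.nS) ^ 3)

/-- `g` itself has the properties of the auxiliary function -/
theorem FOut.toAux {X : FData p Cu Lc δ j C θ ν τ ε c Λ f F v} {K D D' μ r c₀ β : ℝ}
    {g : ConHomeo (Bx (H235.fl θ)) Λ} (O : FOut X K D D' μ r c₀ β g) :
    FAux X D c₀ β g.toFun := ⟨O.close, O.len, O.tv⟩

/-- **(F6) [R2-F]** Round 2: `K3C` gives `FOut` (partition, `In`, dictionary, energies per cell: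
490, 582, 108, 803, 950; sharp clauses: `SharpOut`). The numbers `j`, `δ` depend on `c₀`. -/
def SpecR2F (p : ℝ) : Prop :=
  K3C p → ∃ D : ℝ, 1 ≤ D ∧ ∀ Cu : ℝ, 1 ≤ Cu → ∃ K > 0, ∀ μ > 0, ∃ D' ≥ D, ∃ r > 0, r ≤ 1 ∧
    ∀ c₀ : ℝ, 0 < c₀ → c₀ ≤ 1 / 64 → ∃ (j : ℕ) (δ : ℝ), 7 ≤ j ∧ 0 < δ ∧ δ ≤ c₀ ∧
    ∀ (Lc : M3 → ℝ) (C θ ν τ ε c : ℝ) (Λ : Set V) (f : V → V) (F : V → Mat) (v : V), 0 < θ →
      ContinuousOn f (closure Q1) →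
      ∀ (X : FData p Cu Lc δ j C θ ν τ ε c Λ f F v), ε ≤ c₀ → c ≤ c₀ / 2 →
      ∃ g : ConHomeo (Bx (H235.fl θ)) Λ, FOut X K D D' μ r c₀ (2 * ε) g

/-- **(F7) [ROWS-B]** most squares of the middle plane are nearly monotone (716's `block_count` with
an exceptional set) -/
def SpecRowsB : Prop :=
  ∀ p Cu D C θ r ε₁ : ℝ, 1 ≤ p → 1 ≤ Cu → 1 ≤ D → 0 < C → 0 < θ → 0 < r → r ≤ 1 → 0 < ε₁ →
    ∃ c₁ > 0, ∀ c₀, 0 < c₀ → c₀ ≤ c₁ → ∃ ε₀ > 0, ∀ (δ : ℝ) (j : ℕ) (Lc : M3 → ℝ)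
      (ν τ ε c : ℝ) (Λ : Set V) (f : V → V) (F : V → Mat) (v : V)
      (X : FData p Cu Lc δ j C θ ν τ ε c Λ f F v) (q : V → V),
      ε ≤ ε₀ → c ≤ c₀ / 2 → δ ≤ c₀ → FAux X D c₀ (2 * ε) q →
      ∃ B : Finset (Fin 3 → ℤ), (B.card : ℝ) / 4 ^ X.nS ≤ ε₁ ∧
        ∀ k ∈ rect X.a X.b, k ∉ B → k ∈ X.G ∧ Free c₀ v X.nS X.mt X.toR2.hh.toFun k ∧
          NearMon r v X.nS q k ∧ ShortH r v X.nS X.toR2.hh.toFun k

end post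

/-- **(F8) [POST-F]** the assembly: (F6) and (F7) give `SpecPostF` -/
def SpecPostFOf (p : ℝ) : Prop := SpecR2F p → SpecRowsB → SpecPostF p

end Vale.Agent.P073.H239
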