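import Vale.Agent.P073.H239.FSpec
import Vale.Agent.P073.H732.BeamParts
import Vale.Agent.P073.H190.ConB2

/-!
# P073, block B10: the producer of rank one, `p ≥ 3` (statements)

The twin of `FSpec.lean` for the thin beam `Bx (bm θ₁ θ₂)` and `L = P1`: the same chain
(`SpecChain`), two families of collapses (directions `1` and `2`, the same segments), no sharp
faces. The line is `x 1 = v 1 + a 1 / 2 ^ nS`, `x 2 = v 2 + m₂ / 2 ^ nS`.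

`specConBeamTB_of : K3C p → SpecPreB p → SpecPostB p → SpecConBeamTB p P1`.
-/

open Set Metric Topology Filter MeasureTheory Matrix WithLp
open scoped ENNReal NNReal

namespace Vale.Agent.P073.H239

open Vale.Agent.P073
open Vale.Agent.P073.St (V Mat)
open Vale.Agent.P073.SQ (ev)
open Vale.Agent.P073.LOC (Near Q1 BdClose)
open Vale.Agent.P073.AB (Idx Part pt edge eInt squ FaceOf EdgeOf EdgeOfSq MinSq cl FinDist RatGood)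
open Vale.Agent.P073.AB.P86 (sc)
open Vale.Agent.P073.H73 (MinEdge segP ctr onSeg Mesh faceL)
open Vale.Agent.P073.H194 (sInt cellT Gen partMesh RgN up)
open Vale.Agent.P073.H235 (Bx bm Fr Co cmp cmpD P1 En)
open Vale.Agent.P073.H253 (rectN redgeN ledge xL BVData iv LineData)
open Vale.Agent.P073.H304 (Nb mid In Out K3C)
open Vale.Agent.P073.H696 (Boxes Tgt Dom St1 R2 HF)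
open Vale.Agent.P073.H726 (LBOn)
open Vale.Agent.P073.H732 (upz)
open Vale.Agent.P073.H851 (M3)
open Vale.Agent.P073.H190 (ConBeamTB SpecConBeamTB)
open _root_.P073 (ConHomeo)
open _root_.P073.Net (dyc dyo IsTile SizeFn len)

/-- the sup-norm length of `h` on the edge `e` -/
noncomputable def ll (v : V) (h : V → V) (e : Idx × Fin 3) : ℝ≥0∞ :=
  len (onSeg h (segP v e)) (Icc 0 1)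

section pieces

variable {p Cu : ℝ} {Lc : M3 → ℝ} {δ : ℝ} {j : ℕ} {ε : ℝ} {Ω Λ : Set V} {f : V → V} {F : V → Mat}
  {v : V}

/-- **energies in the volume** -/
structure EnB1 (C θ₁ θ₂ ν₁ : ℝ) (X : R2 p Cu Lc δ j ε Ω Λ f F v) : Prop where
  bulk : enX X univ ≤ ENNReal.ofReal (C * θ₁ * θ₂)
  frame : enX X (Fr (bm θ₁ θ₂) (3 * ν₁) {0, 2}) ≤ ENNReal.ofReal (C * ν₁ * θ₁ * θ₂)

/-- **the plane** `x 1 = v 1 + a 1 / 2 ^ nS` with the core rectangle `[a, b]`, and the line in it -/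
structure PlB1 (θ₁ θ₂ ν₁ τ : ℝ) (X : R2 p Cu Lc δ j ε Ω Λ f F v) (nS : ℕ)
    (a b : Fin 3 → ℤ) (m₂ : ℤ) : Prop where
  fine : 1 / 2 ^ nS ≤ ε
  alt : ∀ i, i ≠ 1 → a i < b i
  unit : (b 0 - a 0 : ℝ) / 2 ^ nS ≤ 1
  sub : RgN 1 v nS a b ⊆ Ω
  mid₁ : |v 1 + a 1 / 2 ^ nS - θ₁| ≤ τ
  minS : ∀ k ∈ rectN 1 a b, MinSq v X.I₁ ((nS, k), 1)
  minE : ∀ i, i ≠ 1 → ∀ k ∈ redgeN 1 a b i, MinEdge v X.I₁ ((nS, k), i)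
  cov : ∀ x ∈ Bx (H235.fl θ₂) ∩ Co (H235.fl θ₂) (ν₁ / 2) {0, 2}, ∃ k ∈ rectN 1 a b,
    Function.update x 1 (v 1 + a 1 / 2 ^ nS) ∈ squ v ((nS, k), 1)
  /-- the boxes and the solid cubes are away from the core of the plane -/
  offS : ∀ k ∈ rectN 1 a b, ∀ q ∈ X.S, Disjoint (dyc v q.1 q.2) (squ v ((nS, k), 1))
  m₂mem : m₂ ∈ Icc (a 2) (b 2)
  mid₂ : |v 2 + m₂ / 2 ^ nS - θ₂| ≤ τ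

/-- **energies on the plane** -/
structure EpB1 (C θ₂ ν : ℝ) (X : R2 p Cu Lc δ j ε Ω Λ f F v) (nS : ℕ)
    (a b : Fin 3 → ℤ) : Prop where
  plBulk : ∑ i ∈ Finset.univ.erase (1 : Fin 3), ∑ k ∈ redgeN 1 a b i,
    ENNReal.ofReal (1 / 2 ^ nS) * (ENNReal.ofReal ((1 / 2 ^ nS) ^ (1 - p)) *
      ll v X.h₁.toFun ((nS, k), i) ^ p) ≤ ENNReal.ofReal (C * θ₂)
  plFrame : ∑ i ∈ Finset.univ.erase (1 : Fin 3), ∑ k ∈ redgeN 1 a b i with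
      v 0 + k 0 / 2 ^ nS ≤ 4 * ν ∨ 1 - 4 * ν ≤ v 0 + k 0 / 2 ^ nS,
    ENNReal.ofReal (1 / 2 ^ nS) * (ENNReal.ofReal ((1 / 2 ^ nS) ^ (1 - p)) *
      ll v X.h₁.toFun ((nS, k), i) ^ p) ≤ ENNReal.ofReal (C * ν * θ₂)

/-- **the target near the line.** `mt`: generation of the tiles near the image of the line; `G`: good
edges; `gg`: the approximation of the collapse. -/
structure TgB1 (c : ℝ) (X : R2 p Cu Lc δ j ε Ω Λ f F v) (nS : ℕ) (k₁ k₂ α β : ℤ) (mt : ℕ)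
    (G : Finset ℤ) (gg : ConHomeo Λ Λ) : Prop where
  mtε : 1 / 2 ^ mt ≤ ε
  /-- `Tt` is close to the identity at the boundary -/
  bdT : ∀ η > 0, ∃ K ⊆ Λ, IsCompact K ∧ ∀ y ∈ Λ, y ∉ K → ‖X.Tt.toFun y - y‖ ≤ η
  tile : ∀ k ∈ Finset.Ico α β, ∀ x ∈ edge v (ledge nS k₁ k₂ k), ∀ z : Fin 3 → ℤ,
    (∃ y ∈ dyc 0 mt z, ‖X.hh.toFun x - y‖ ≤ 4 / 2 ^ mt) → IsTile X.ρ 0 mt z
  act : ∀ k ∈ Finset.Ico α β, ∀ x ∈ edge v (ledge nS k₁ k₂ k), ∀ z : Fin 3 → ℤ,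
    (∃ y ∈ dyc 0 mt z, ‖X.hh.toFun x - y‖ ≤ 1 / 64 / 2 ^ mt) → (mt, z) ∈ X.J₀
  osc : ∀ k ∈ Finset.Ico α β, ∀ x ∈ edge v (ledge nS k₁ k₂ k),
    ∀ y ∈ edge v (ledge nS k₁ k₂ k), ‖X.hh.toFun x - X.hh.toFun y‖ ≤ δ / 2 ^ mt ∧
      ‖gg.toFun (X.h₁.toFun x) - gg.toFun (X.h₁.toFun y)‖ ≤ δ / 2 ^ mt
  Gsub : G ⊆ Finset.Ico α β
  tube : ∀ k ∈ G, ∃ t : Fin 3 → ℤ, ∀ x ∈ edge v (ledge nS k₁ k₂ k), ∀ j, j ≠ 0 →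
    |X.hh.toFun x j - t j / 2 ^ mt| ≤ δ / 2 ^ mt
  /-- number of the bad edges -/
  card : (((Finset.Ico α β \ G).card : ℝ) / 2 ^ nS) ≤ ε
  gglip : ∀ y ∈ Λ, ∀ y' ∈ Λ,
    ‖toLp 2 (gg.toFun y - gg.toFun y')‖ ≤ (1 + ε) * ‖toLp 2 (y - y')‖
  ggc : ∀ y ∈ Λ, ‖gg.toFun y - y‖ ≤ ε
  far : ∀ k ∈ Finset.Ico α β, ∀ x ∈ edge v (ledge nS k₁ k₂ k),
    ‖X.hh.toFun x - gg.toFun (X.h₁.toFun x)‖ ≤ 2 / 2 ^ mt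
  /-- `Tt = gg` in the tangential direction, off the walls of the tiles -/
  tan : ∀ k ∈ G, ∀ x ∈ edge v (ledge nS k₁ k₂ k), ∀ z : ℤ,
    (z + c) / 2 ^ mt ≤ gg.toFun (X.h₁.toFun x) 0 →
    gg.toFun (X.h₁.toFun x) 0 ≤ (z + 1 - c) / 2 ^ mt →
    X.hh.toFun x 0 = gg.toFun (X.h₁.toFun x) 0

/-- **the edges of the line.** `Xe`: the errors -/
structure EdB1 (X : R2 p Cu Lc δ j ε Ω Λ f F v) (nS : ℕ) (k₁ k₂ α β : ℤ)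
    (Xe : ℤ → ℝ≥0∞) : Prop where
  /-- Euclidean length of `h₁` -/
  len : ∀ k ∈ Finset.Ico α β, H239.len2 X.h₁.toFun (segP v (ledge nS k₁ k₂ k)) ≤
    ENNReal.ofReal (1 / 2 ^ nS) + Xe k
  /-- derivative of `h₁` -/
  near : ∀ k ∈ Finset.Ico α β, eInt v (ledge nS k₁ k₂ k)
    (fun x => ENNReal.ofReal ‖lineDeriv ℝ X.h₁.toFun x (ev 0) - ev 0‖) ≤ Xe k
  /-- displacement of the map -/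
  disp : ∀ k ∈ Finset.Ico α β, ENNReal.ofReal (1 / 2 ^ nS -
    (f (segP v (ledge nS k₁ k₂ k)).2 0 - f (segP v (ledge nS k₁ k₂ k)).1 0)) ≤ Xe k
  close : ∑ k ∈ Finset.Ico α β, ENNReal.ofReal ((1 / 2 ^ nS) ^ (1 - p)) * Xe k ^ p ≤
    ENNReal.ofReal ε

end pieces

/-- **The data of block B10, rank one.** -/
structure BData (p Cu : ℝ) (Lc : M3 → ℝ) (δ : ℝ) (j : ℕ) (C θ₁ θ₂ ν₁ ν τ ε c : ℝ) (Λ : Set V)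
    (f : V → V) (F : V → Mat) (v : V) extends
    R2 p Cu Lc δ j ε (Bx (bm θ₁ θ₂)) Λ (cmp (bm θ₁ θ₂) f) (cmpD (bm θ₁ θ₂) F) v where
  nS : ℕ
  a : Fin 3 → ℤ
  b : Fin 3 → ℤ
  m₂ : ℤ
  mt : ℕ
  G : Finset ℤ
  gg : ConHomeo Λ Λ
  Xe : ℤ → ℝ≥0∞
  en : EnB1 C θ₁ θ₂ ν₁ toR2
  pl : PlB1 θ₁ θ₂ ν₁ τ toR2 nS a b m₂
  ep : EpB1 C θ₂ ν toR2 nS a b
  tp : TgB1 c toR2 nS (a 1) m₂ (a 0) (b 0) mt G gg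
  ed : EdB1 toR2 nS (a 1) m₂ (a 0) (b 0) Xe

/-- **[PRE-B]** the data exist. -/
def SpecPreB (p : ℝ) : Prop :=
  ∃ (Cu C : ℝ) (Lc : M3 → ℝ), 1 ≤ Cu ∧ 0 < C ∧ ∀ ν, 0 < ν → ν ≤ 1 / 4 → ∀ θ₂, 0 < θ₂ →
    θ₂ ≤ 1 / 4 → ∀ ν₁, 0 < ν₁ → ν₁ ≤ ν / 4 → ∃ θ₀ > 0, ∀ θ₁, 0 < θ₁ → θ₁ ≤ θ₀ → ∀ τ > 0,
    ∀ (j : ℕ) (δ c ε : ℝ), 7 ≤ j → 0 < δ → 0 < c → 0 < ε → ε ≤ 1 →
    ∃ κ > 0, ∀ (Λ : Set V) (f : V → V) (F : V → Mat), Near p κ P1 Λ f F →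
      ∃ v : V, Nonempty (BData p Cu Lc δ j C θ₁ θ₂ ν₁ ν τ ε c Λ f F v)

/-- **[POST-B]** -/
def SpecPostB (p : ℝ) : Prop :=
  K3C p → ∀ Cu : ℝ, 1 ≤ Cu → ∃ D > 0, ∀ C > 0, ∀ ε > 0, ∃ M ≥ 1, ∀ (θ₁ θ₂ ν₁ ν : ℝ), 0 < θ₁ →
    θ₁ ≤ 1 / 4 → 0 < θ₂ → θ₂ ≤ 1 / 4 → 0 < ν₁ → ν₁ ≤ ν / 4 → ν ≤ 1 / 4 → ∀ τ > 0,
    ∃ (j : ℕ) (δ c ε' : ℝ), 7 ≤ j ∧ 0 < δ ∧ 0 < c ∧ 0 < ε' ∧ ε' ≤ 1 ∧
    ∀ (Lc : M3 → ℝ) (τ' : ℝ) (Λ : Set V) (f : V → V) (F : V → Mat) (v : V),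
      Near p 1 P1 Λ f F → τ' ≤ τ → τ' < θ₁ → τ' < θ₂ →
      BData p Cu Lc δ j C θ₁ θ₂ ν₁ ν τ' ε' c Λ f F v →
      ConBeamTB p (D * C) M θ₁ θ₂ ν₁ ν τ ε P1 Λ f

theorem near_mono1 {p κ κ' : ℝ} {L : V →L[ℝ] V} {Λ : Set V} {f : V → V} {F : V → Mat}
    (h : κ ≤ κ') (H : Near p κ L Λ f F) : Near p κ' L Λ f F :=
  ⟨H.dom, H.homeo, H.cont, H.sob, H.near.trans (ENNReal.ofReal_le_ofReal h)⟩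

/-- **the producer of rank one, `p ≥ 3`** -/
theorem specConBeamTB_of {p : ℝ} (hK : K3C p) (h1 : SpecPreB p) (h2 : SpecPostB p) :
    SpecConBeamTB p P1 := by
  obtain ⟨Cu, C, Lc, hCu, hC, H1⟩ := h1
  obtain ⟨D, hD, H2⟩ := h2 hK Cu hCu
  refine ⟨D * C, by positivity, fun ε hε => ?_⟩
  obtain ⟨M, hM, H2'⟩ := H2 C hC ε hε
  refine ⟨M, hM, fun ν hν hν4 θ₂ hθ₂ hθ₂4 ν₁ hν₁ hν₁4 => ?_⟩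
  obtain ⟨θ₀, hθ₀, H1'⟩ := H1 ν hν hν4 θ₂ hθ₂ hθ₂4 ν₁ hν₁ hν₁4
  refine ⟨min θ₀ (1 / 4), by positivity, fun θ₁ hθ₁ hθ₁' τ hτ => ?_⟩
  obtain ⟨j, δ, c, ε', hj, hδ, hc, hε', hε1, H2''⟩ := H2' θ₁ θ₂ ν₁ ν hθ₁
    (hθ₁'.trans (min_le_right _ _)) hθ₂ hθ₂4 hν₁ hν₁4 hν4 τ hτ
  obtain ⟨κ, hκ, H1''⟩ := H1' θ₁ hθ₁ (hθ₁'.trans (min_le_left _ _))
    (min τ (min (θ₁ / 2) (θ₂ / 2))) (by positivity) j δ c ε' hj hδ hc hε' hε1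
  refine ⟨min κ 1, by positivity, fun Λ f F hN => ?_⟩
  obtain ⟨v, ⟨P⟩⟩ := H1'' Λ f F (near_mono1 (min_le_left _ _) hN)
  have h3 : min τ (min (θ₁ / 2) (θ₂ / 2)) ≤ θ₁ / 2 := (min_le_right _ _).trans (min_le_left _ _)
  have h4 : min τ (min (θ₁ / 2) (θ₂ / 2)) ≤ θ₂ / 2 := (min_le_right _ _).trans (min_le_right _ _)
  exact H2'' Lc _ Λ f F v (near_mono1 (min_le_right _ _) hN) (min_le_left _ _) (by linarith)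
    (by linarith) P

/-! ## Leaves of `SpecPreB` -/

/-- **(G1) [BVB]** generic origin for the plane, the line and the boxes -/
def SpecBVB : Prop :=
  ∀ p : ℝ, 1 ≤ p → ∀ (θ₁ θ₂ κ : ℝ) (m₀ : ℕ), 0 < θ₁ → θ₁ ≤ 1 / 4 → 0 < θ₂ → θ₂ ≤ 1 / 4 →
    0 < κ → ∃ κ' > 0, ∀ (Λ : Set V) (f : V → V) (F : V → Mat), Near p κ' P1 Λ f F →
      St.IsHomeo (Bx (bm θ₁ θ₂)) Λ (cmp (bm θ₁ θ₂) f) ∧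
      St.IsSobolev p (Bx (bm θ₁ θ₂)) (cmp (bm θ₁ θ₂) f) (cmpD (bm θ₁ θ₂) F) ∧
      ∃ D : BVData p θ₁ θ₂ κ m₀ Λ f F,
        Gen D.v D.nn (HF p (Bx (bm θ₁ θ₂)) (cmpD (bm θ₁ θ₂) F)) ∧
        ∀ᵐ x ∂(volume : Measure V), x ∈ Bx (bm θ₁ θ₂) →
          H911.OwnPt p (cmpD (bm θ₁ θ₂) F) D.v D.nn x

/-- **(G3) [SEG-B]** the choice of the segments (twin of `H253.SpecBeamCol`, with two families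
`PFam` of the directions `1` and `2` instead of the homeomorphism). `G`: good intervals of generation
`n₃`; `ε₁`: the neighbourhoods are close to the curve. -/
def SpecSegB : Prop :=
  ∀ ε b : ℝ, 0 < ε → 0 < b → b ≤ 1 / 2 → ∃ κ > 0, ∀ (v₀ : ℝ) (m₀ : ℕ) (z₀ z₁ : ℤ) (Λ : Set V)
    (γ : ℝ → V) (ψ : ℝ → ℝ),
    z₀ < z₁ → (z₁ - z₀ : ℝ) / 2 ^ m₀ ≤ 1 → IsOpen Λ →
    ContinuousOn γ (Icc (v₀ + z₀ / 2 ^ m₀) (v₀ + z₁ / 2 ^ m₀)) →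
    MapsTo γ (Icc (v₀ + z₀ / 2 ^ m₀) (v₀ + z₁ / 2 ^ m₀)) Λ →
    IntegrableOn ψ (Icc (v₀ + z₀ / 2 ^ m₀) (v₀ + z₁ / 2 ^ m₀)) → (∀ t, 0 ≤ ψ t) →
    (∀ s t, v₀ + z₀ / 2 ^ m₀ ≤ s → s ≤ t → t ≤ v₀ + z₁ / 2 ^ m₀ →
      ‖(γ t - t • ev 0) - (γ s - s • ev 0)‖ ≤ ∫ x in s..t, ψ x) →
    ∫ x in Icc (v₀ + z₀ / 2 ^ m₀) (v₀ + z₁ / 2 ^ m₀), ψ x ≤ κ → ∀ ε₁ > 0,
    ∃ n₀ : ℕ, ∀ n₃ ≥ n₀, ∃ (G : Finset ℤ) (j₀ : ℕ),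
      (∀ k ∈ G, iv v₀ n₃ k ⊆ Icc (v₀ + z₀ / 2 ^ m₀) (v₀ + z₁ / 2 ^ m₀)) ∧
      (z₁ - z₀ : ℝ) / 2 ^ m₀ - (G.card : ℝ) / 2 ^ n₃ ≤ ε ∧
      ∀ jt ≥ j₀, ∃ (ι : Type) (_ : Finite ι) (lo hi : ι → V) (R : ι → ℝ) (r : ℝ), 0 < r ∧
        PFam Λ b (fun _ => 1) lo hi R ∧ PFam Λ b (fun _ => 2) lo hi R ∧ (∀ z, R z ≤ ε₁) ∧
        (∀ z, ∀ j, j ≠ 0 → ∃ t : ℤ, lo z j = t / 2 ^ jt) ∧
        (∀ z, ∀ y ∈ bx (lo z) (hi z) (R z), ∃ s ∈ Icc (v₀ + z₀ / 2 ^ m₀) (v₀ + z₁ / 2 ^ m₀),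
          ‖y - γ s‖ ≤ ε₁) ∧
        ∀ k ∈ G, ∃ z, ∀ u ∈ iv v₀ n₃ k, ∀ y, ‖y - γ u‖ ≤ r → ∀ j, j ≠ 0 →
          |y j - lo z j| ≤ b * (R z - dd j (lo z) (hi z) y) - r

/-- the properties of the total target homeomorphism near the segments. `Kc`: a compact set where
all tiles have the same generation `mt` -/
structure TgtP1 {ι : Type} (c ε b : ℝ) (lo hi : ι → V) (R : ι → ℝ) (r : ℝ) (Kc Λ : Set V)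
    (ρ : V → ℝ) (mt : ℕ) (gg : ConHomeo Λ Λ) (Tt : V → V) : Prop where
  lip : ∀ y ∈ Λ, ∀ y' ∈ Λ, ‖toLp 2 (gg.toFun y - gg.toFun y')‖ ≤ (1 + ε) * ‖toLp 2 (y - y')‖
  close : ∀ y ∈ Λ, ‖gg.toFun y - y‖ ≤ ε
  far : ∀ y ∈ Kc, ‖Tt y - gg.toFun y‖ ≤ 2 / 2 ^ mt
  mtε : 1 / 2 ^ mt ≤ ε
  bdT : ∀ η > 0, ∃ K ⊆ Λ, IsCompact K ∧ ∀ y ∈ Λ, y ∉ K → ‖Tt y - y‖ ≤ η
  grid : ∀ z, ∀ j, j ≠ 0 → ∃ t : ℤ, lo z j = t / 2 ^ mt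
  tile : ∀ y ∈ Kc, ∀ z : Fin 3 → ℤ, (∃ u ∈ dyc 0 mt z, ‖Tt y - u‖ ≤ 4 / 2 ^ mt) → IsTile ρ 0 mt z
  tube : ∀ z, ∀ y ∈ Kc, (∀ j, j ≠ 0 → |y j - lo z j| ≤ b * (R z - dd j (lo z) (hi z) y) - r) →
    (∀ j, j ≠ 0 → |Tt y j - lo z j| ≤ c / 2 ^ mt) ∧
    ∀ w : ℤ, (w + c) / 2 ^ mt ≤ gg.toFun y 0 → gg.toFun y 0 ≤ (w + 1 - c) / 2 ^ mt →
      Tt y 0 = gg.toFun y 0

/-- **(G4) [TGT-B]** the target with segments (851): the generalised collapse `T₂ ∘ T₁ ∘ T`. -/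
def SpecTgtF1 : Prop :=
  ∃ (Cu : ℝ) (Lc : M3 → ℝ), 1 ≤ Cu ∧ (∀ M, 1 ≤ Lc M) ∧ ∀ ε > 0, ∃ b₀ > 0,
    ∀ (Ω Λ : Set V), St.IsBoundedDomain Λ → ∀ (ι : Type) (_ : Finite ι)
      (lo hi : ι → V) (R : ι → ℝ) (b r c : ℝ) (jt : ℕ) (Kc : Set V), b ≤ b₀ →
      PFam Λ b (fun _ => 1) lo hi R → PFam Λ b (fun _ => 2) lo hi R → (∀ z, R z ≤ ε) →
      0 < r → 0 < c → Kc ⊆ Λ → IsCompact Kc →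
      (∀ z, ∀ j, j ≠ 0 → ∃ t : ℤ, lo z j = t / 2 ^ jt) → ∀ M₀ > 0, ∀ (j : ℕ) (v : V), 2 ≤ j →
      TgtO Cu Lc Ω Λ ε (3 * ε) j v M₀ (⋃ z, bx (lo z) (hi z) (R z)) fun ρ _ Tt r' =>
        ∃ (mt : ℕ) (gg : ConHomeo Λ Λ), (∀ a, r' a = c / 2 ^ mt) ∧
          TgtP1 c (3 * ε) b lo hi R r Kc Λ ρ mt gg Tt.toFun

/-- **[EN-B]** the energies in the volume (from `H732.SpecEnerB`) -/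
def SpecEnB (p : ℝ) : Prop :=
  ∀ C₁ : ℝ, 1 ≤ C₁ → ∃ C > 0, ∀ (θ₁ θ₂ ν₁ κ : ℝ) (m₀ : ℕ) (Λ : Set V) (f : V → V) (F : V → Mat)
    (D : BVData p θ₁ θ₂ κ m₀ Λ f F), 0 < θ₁ → θ₁ ≤ 1 / 4 → 0 < θ₂ → θ₂ ≤ 1 / 4 → 0 < ν₁ →
    ν₁ ≤ 1 / 16 → κ ≤ ν₁ * θ₁ * θ₂ → ∃ r₀ > 0, ∃ ε₂ > 0, ∀ (Cu : ℝ) (Lc : M3 → ℝ) (δ : ℝ)
      (j : ℕ) (ε : ℝ)
      (X : R2 p Cu Lc δ j ε (Bx (bm θ₁ θ₂)) Λ (cmp (bm θ₁ θ₂) f) (cmpD (bm θ₁ θ₂) F) D.v),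
      (∀ A : Set V, enX X A ≤ ENNReal.ofReal C₁ *
        (∫⁻ y in {y | y ∈ Bx (bm θ₁ θ₂) ∧ infDist y A ≤ r₀},
          HF p (Bx (bm θ₁ θ₂)) (cmpD (bm θ₁ θ₂) F) y) + ENNReal.ofReal ε₂) →
      EnB1 C θ₁ θ₂ ν₁ X

/-- **[PL-B]** the plane and the line -/
def SpecPlB : Prop :=
  ∀ (p Cu : ℝ) (Lc : M3 → ℝ) (δ : ℝ) (j : ℕ) (ε θ₁ θ₂ ν₁ τ : ℝ) (Λ : Set V) (f : V → V)
    (F : V → Mat) (v : V) (X : R2 p Cu Lc δ j ε (Bx (bm θ₁ θ₂)) Λ f F v) (I : Set Idx)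
    (k₁ : Idx → ℕ) (m₀ nS : ℕ) (B₁ B₂ : ℤ) (α β : Fin 3 → ℤ), 0 < θ₁ → 0 < θ₂ → 0 < ν₁ →
    |v 1 + B₁ / 2 ^ m₀ - θ₁| ≤ 1 / 2 ^ m₀ → |v 2 + B₂ / 2 ^ m₀ - θ₂| ≤ 1 / 2 ^ m₀ →
    1 / 2 ^ m₀ ≤ τ → 1 / 2 ^ nS ≤ ε →
    α 1 = B₁ → (∀ j, j ≠ 1 → α j < β j) → (β 0 - α 0 : ℝ) / 2 ^ m₀ ≤ 1 →
    B₂ ∈ Icc (α 2) (β 2) → RgN 1 v m₀ α β ⊆ Bx (bm θ₁ θ₂) →
    (∀ x ∈ Bx (H235.fl θ₂) ∩ Co (H235.fl θ₂) (ν₁ / 2) {0, 2}, ∀ j, j ≠ 1 →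
        v j + α j / 2 ^ m₀ ≤ x j ∧ x j ≤ v j + β j / 2 ^ m₀) →
    X.I₁ = H696.part1 v X.K X.n k₁ I →
    (∀ k ∈ X.K, Disjoint (dyc v k.1 k.2) (RgN 1 v m₀ α β)) →
    m₀ ≤ nS → (∀ x ∈ RgN 1 v m₀ α β, ∀ q ∈ I, x ∈ dyc v q.1 q.2 → q.1 = nS) →
    PlB1 θ₁ θ₂ ν₁ τ X nS (up m₀ nS α) (up m₀ nS β) (upz m₀ nS B₂)

/-- **[EP-B]** the energies on the plane -/
def SpecEpB (p : ℝ) : Prop :=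
  ∃ C > 0, ∀ (θ₁ θ₂ ν κ : ℝ) (m₀ : ℕ) (Λ : Set V) (f : V → V) (F : V → Mat)
    (D : BVData p θ₁ θ₂ κ m₀ Λ f F) (α β : Fin 3 → ℤ), 0 < θ₁ → θ₁ ≤ 1 / 4 → 0 < θ₂ →
    θ₂ ≤ 1 / 4 → 0 < ν → ν ≤ 1 / 4 → κ ≤ ν * θ₂ → 1 / 2 ^ m₀ ≤ ν →
    α 1 = D.B₁ → (∀ j, j ≠ 1 → α j < β j) → RgN 1 D.v m₀ α β ⊆ Bx (bm θ₁ θ₂) →
    (β 0 - α 0 : ℝ) / 2 ^ m₀ ≤ 1 → (β 2 - α 2 : ℝ) / 2 ^ m₀ ≤ 2 * θ₂ →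
    ∃ l₀ : ℕ, ∃ b₀ > 0, ∀ l ≥ l₀, m₀ ≤ D.nn l →
    ∀ (Cu : ℝ) (Lc : M3 → ℝ) (δ : ℝ) (j : ℕ) (ε : ℝ)
      (X : R2 p Cu Lc δ j ε (Bx (bm θ₁ θ₂)) Λ (cmp (bm θ₁ θ₂) f) (cmpD (bm θ₁ θ₂) F) D.v)
      (b : ℝ), 0 < b → b ≤ b₀ →
      (∀ i, i ≠ 1 → ∀ k ∈ redgeN 1 (up m₀ (D.nn l) α) (up m₀ (D.nn l) β) i,
        eInt D.v ((D.nn l, k), i) (fun x => ENNReal.ofReal ‖lineDeriv ℝ X.h₁.toFun x (ev i) -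
          cl (cmpD (bm θ₁ θ₂) F x) (ev i)‖) ≤ ENNReal.ofReal (b / 2 ^ D.nn l)) →
      EpB1 C θ₂ ν X (D.nn l) (up m₀ (D.nn l) α) (up m₀ (D.nn l) β)

/-- **[TG-B]** the target near the line. `G₃`: the good intervals of `SpecSegB`. -/
def SpecTgB : Prop :=
  ∀ (p Cu : ℝ) (Lc : M3 → ℝ) (δ : ℝ) (j : ℕ) (ε : ℝ) (Ω Λ : Set V) (f : V → V)
    (F : V → Mat) (v : V) (X : R2 p Cu Lc δ j ε Ω Λ f F v) (m₀ n₃ nS mt : ℕ)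
    (B₁ B₂ α β : ℤ) (G₃ : Finset ℤ) (ι : Type) (lo hi : ι → V) (R : ι → ℝ)
    (b r c : ℝ) (Kc L₀ : Set V) (gg : ConHomeo Λ Λ), 0 < r → 0 < c → c ≤ δ / 4 → α < β →
    m₀ ≤ n₃ → n₃ ≤ nS →
    -- `L₀`: the line
    L₀ = {x | x 1 = v 1 + B₁ / 2 ^ m₀ ∧ x 2 = v 2 + B₂ / 2 ^ m₀ ∧
      x 0 ∈ Icc (v 0 + α / 2 ^ m₀) (v 0 + β / 2 ^ m₀)} → L₀ ⊆ Ω →
    (∀ k ∈ G₃, iv (v 0) n₃ k ⊆ Icc (v 0 + α / 2 ^ m₀) (v 0 + β / 2 ^ m₀)) →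
    (β - α : ℝ) / 2 ^ m₀ - (G₃.card : ℝ) / 2 ^ n₃ ≤ ε →
    (∀ k ∈ G₃, ∃ z, ∀ u ∈ iv (v 0) n₃ k, ∀ y, ‖y - f ![u, v 1 + B₁ / 2 ^ m₀,
      v 2 + B₂ / 2 ^ m₀]‖ ≤ r → ∀ j, j ≠ 0 →
        |y j - lo z j| ≤ b * (R z - dd j (lo z) (hi z) y) - r) →
    (∀ x ∈ L₀, ∀ y, ‖y - f x‖ ≤ r → y ∈ Kc) →
    (∀ k ∈ X.K, Disjoint (dyc v k.1 k.2) L₀) →
    (∀ x ∈ L₀, ‖X.h₁.toFun x - f x‖ ≤ r) →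
    (∀ k ∈ Finset.Ico (upz m₀ nS α) (upz m₀ nS β),
      MinEdge v X.I₁ (ledge nS (upz m₀ nS B₁) (upz m₀ nS B₂) k)) →
    (∀ a ∈ Ω, X.δs a ≤ c / 2 ^ mt) →
    TgtP1 c ε b lo hi R r Kc Λ X.ρ mt gg X.Tt.toFun →
    ∃ G : Finset ℤ, TgB1 c X nS (upz m₀ nS B₁) (upz m₀ nS B₂) (upz m₀ nS α) (upz m₀ nS β) mt G gg

/-- **[ED-B]** the edges of the line (from `H732.SpecXL`) -/
def SpecEdB (p : ℝ) : Prop :=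
  ∃ K > 0, ∀ (θ₁ θ₂ κ : ℝ) (m₀ : ℕ) (Λ : Set V) (f : V → V) (F : V → Mat), 0 < κ →
    ∀ (D : BVData p θ₁ θ₂ κ m₀ Λ f F) (α β : ℤ), α < β → (β - α : ℝ) / 2 ^ m₀ ≤ 1 →
    (∀ k ∈ Finset.Ico α β, edge D.v (ledge m₀ D.B₁ D.B₂ k) ⊆ Bx (bm θ₁ θ₂)) →
    ∀ n : ℕ, m₀ ≤ n →
    ∀ (Cu : ℝ) (Lc : M3 → ℝ) (δ : ℝ) (j : ℕ) (ε : ℝ)
      (X : R2 p Cu Lc δ j ε (Bx (bm θ₁ θ₂)) Λ (cmp (bm θ₁ θ₂) f) (cmpD (bm θ₁ θ₂) F) D.v)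
      (b : ℝ), 0 < b → b ≤ 1 → K * (κ + b) ≤ ε →
      (∀ k ∈ Finset.Ico (upz m₀ n α) (upz m₀ n β),
        eInt D.v (ledge n (upz m₀ n D.B₁) (upz m₀ n D.B₂) k)
          (fun x => ENNReal.ofReal ‖lineDeriv ℝ X.h₁.toFun x (ev 0) -
            cl (cmpD (bm θ₁ θ₂) F x) (ev 0)‖) ≤ ENNReal.ofReal (b / 2 ^ n)) →
      ∃ Xe, EdB1 X n (upz m₀ n D.B₁) (upz m₀ n D.B₂) (upz m₀ n α) (upz m₀ n β) Xe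

/-- **(G8) [PRE-B]** the assembly -/
def SpecPreBAsm (p : ℝ) : Prop :=
  SpecBVB → H732.SpecRectB → SpecBoxAt p → SpecSegB → SpecTgtF1 → SpecDomL → K3C p →
    SpecChain p → SpecEnB p → SpecPlB → SpecEpB p → SpecTgB → SpecEdB p → SpecPreB p

/-! ## Leaves of `SpecPostB` -/

section post

variable {p Cu : ℝ} {Lc : M3 → ℝ} {δ : ℝ} {j : ℕ} {C θ₁ θ₂ ν₁ ν τ ε c : ℝ} {Λ : Set V} {f : V → V}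
  {F : V → Mat} {v : V}

/-- the edge `k` of the line -/
def BData.e (X : BData p Cu Lc δ j C θ₁ θ₂ ν₁ ν τ ε c Λ f F v) (k : ℤ) : Idx × Fin 3 :=
  ledge X.nS (X.a 1) X.m₂ k

/-- **The output of Round 2.** `D`: constant of `K3C`; `c₀`: the zone of `K3C` and the margin of the
sharp clause; `K`: depends on `p`, `Cu` only. -/
structure FOut1 (X : BData p Cu Lc δ j C θ₁ θ₂ ν₁ ν τ ε c Λ f F v) (K D c₀ β : ℝ)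
    (g : ConHomeo (Bx (bm θ₁ θ₂)) Λ) : Prop where
  bd : BdClose (Bx (bm θ₁ θ₂)) (cmp (bm θ₁ θ₂) f) g.toFun
  /-- local energies -/
  en : ∀ A : Set V, ∫⁻ x in Bx (bm θ₁ θ₂) ∩ A, ENNReal.ofReal (‖fderiv ℝ g.toFun x‖ ^ p) ≤
    ENNReal.ofReal (K * D) * enX X.toR2 A + ENNReal.ofReal (K * D * β)
  close : ∀ k ∈ Finset.Ico (X.a 0) (X.b 0), ∀ x ∈ edge v (X.e k),
    ‖g.toFun x - X.toR2.hh.toFun x‖ ≤ D / 2 ^ X.mt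
  /-- energy of the squares of the plane (form of `H253.SpecPlaneSum`) -/
  face : ∀ k ∈ rectN 1 X.a X.b, faceL p g.toFun (sc v ((X.nS, k), 1)) 1 (1 / 2 / 2 ^ X.nS) ≤
    ENNReal.ofReal (K * D * (1 / 2 ^ X.nS) ^ 2) *
      ∑' e : {e : Idx × Fin 3 // MinEdge v X.I₁ e ∧ edge v e ⊆ squ v ((X.nS, k), 1)},
        ENNReal.ofReal ((1 / 2 ^ e.1.1.1) ^ (1 - p)) *
          (ll v X.h₁.toFun e.1 + ENNReal.ofReal (β / 2 ^ X.nS)) ^ p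
  /-- Lipschitz constants on the edges of the line -/
  elip : ∀ k ∈ Finset.Ico (X.a 0) (X.b 0), ll v X.h₁.toFun (X.e k) ≠ ⊤ → ∀ x ∈ edge v (X.e k),
    ∀ y ∈ edge v (X.e k), ‖g.toFun x - g.toFun y‖ ≤
      K * D * (((ll v X.h₁.toFun (X.e k)).toReal + β / 2 ^ X.nS) * 2 ^ X.nS) * ‖x - y‖
  /-- sharp edges -/
  tv : ∀ k ∈ X.G, (∃ z : ℤ, ∀ x ∈ edge v (X.e k),
      (z + c₀) / 2 ^ X.mt ≤ X.toR2.hh.toFun x 0 ∧ X.toR2.hh.toFun x 0 ≤ (z + 1 - c₀) / 2 ^ X.mt) →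
    H239.tv g.toFun (segP v (X.e k)) Finset.univ ≤
      ENNReal.ofReal (1 + c₀) * H239.tv X.toR2.hh.toFun (segP v (X.e k)) {0} +
        ENNReal.ofReal (β / 2 ^ X.nS)

/-- **(H1) [R2-B]** Round 2 (twin of `SpecR2F`) -/
def SpecR2B (p : ℝ) : Prop :=
  K3C p → ∃ D : ℝ, 1 ≤ D ∧ ∀ Cu : ℝ, 1 ≤ Cu → ∃ K > 0,
    ∀ c₀ : ℝ, 0 < c₀ → c₀ ≤ 1 / 64 → ∃ (j : ℕ) (δ : ℝ), 7 ≤ j ∧ 0 < δ ∧ δ ≤ c₀ ∧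
    ∀ (Lc : M3 → ℝ) (C θ₁ θ₂ ν₁ ν τ ε c : ℝ) (Λ : Set V) (f : V → V) (F : V → Mat) (v : V),
      0 < θ₁ → 0 < θ₂ → ContinuousOn f (closure Q1) →
      ∀ (X : BData p Cu Lc δ j C θ₁ θ₂ ν₁ ν τ ε c Λ f F v), ε ≤ c₀ → c ≤ c₀ / 2 →
      ∃ g : ConHomeo (Bx (bm θ₁ θ₂)) Λ, FOut1 X K D c₀ (2 * ε) g

/-- **(H2) [LINE-B]** the data of the line in the form of `H253.SpecLineOK`, for the conical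
homeomorphism `gg ∘ h₁` (one variable: length and displacement give closeness of the derivative) -/
def SpecLineB : Prop :=
  ∀ p Cu D K : ℝ, 2 ≤ p → 1 ≤ Cu → 1 ≤ D → 0 < K → ∃ (C' D' : ℝ), 0 < C' ∧ 0 < D' ∧
    ∀ c₁ : ℝ, 0 < c₁ → c₁ ≤ 1 / 64 → ∀ ε₁ > 0, ∃ ε₀ > 0, ∀ (δ : ℝ) (j : ℕ) (Lc : M3 → ℝ)
      (C θ₁ θ₂ ν₁ ν τ ε c : ℝ) (Λ : Set V) (f : V → V) (F : V → Mat) (v : V)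
      (X : BData p Cu Lc δ j C θ₁ θ₂ ν₁ ν τ ε c Λ f F v) (g : ConHomeo (Bx (bm θ₁ θ₂)) Λ),
      ε ≤ ε₀ → c ≤ c₁ / 4 → δ ≤ c₁ / 4 → 0 < θ₁ → 0 < θ₂ → FOut1 X K D (c₁ / 2) (2 * ε) g →
      ∃ (ℓ X' : ℤ → ℝ≥0∞), LineData p C' D' c₁ ε₁ v X.nS X.mt (X.a 1) X.m₂ (X.a 0) (X.b 0) X.G
        (X.h₁.trans X.gg) g ℓ X'

end post

/-- **(H3) [POST-B]** the assembly -/
def SpecPostBAsm (p : ℝ) : Prop :=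
  SpecR2B p → SpecLineB → H253.SpecLineOK → H253.SpecPlaneSum → SpecPostB p

end Vale.Agent.P073.H239
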