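import Vale.Agent.P073.H239.FSpec
import Vale.Agent.P073.H235.PreParts

/-!
# P073, block B10: the sub-lemmas of the assembly of `SpecPreF` (statements)

The output of `SpecChain` is turned into the four parts of `FData`.
-/

open Set Metric Topology Filter MeasureTheory Matrix WithLp
open scoped ENNReal NNReal

namespace Vale.Agent.P073.H239

open Vale.Agent.P073
open Vale.Agent.P073.St (V Mat)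
open Vale.Agent.P073.SQ (ev)
open Vale.Agent.P073.LOC (Near Q1 BdClose)
open Vale.Agent.P073.AB (Idx Part pt edge eInt squ FaceOf EdgeOf EdgeOfSq MinSq cl FinDist RatGood)
open Vale.Agent.P073.H73 (MinEdge segP ctr onSeg Mesh faceL)
open Vale.Agent.P073.H194 (sInt cellT Gen partMesh Rg up)
open Vale.Agent.P073.H235 (Bx Fr Co cmp cmpD P2 En rect redge VData2)
open Vale.Agent.P073.H304 (K3C)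
open Vale.Agent.P073.H696 (R2 HF)
open Vale.Agent.P073.H851 (M3)
open _root_.P073 (ConHomeo)
open _root_.P073.Net (dyc dyo IsTile SizeFn len)

/-- **[EN-F]** the energies (from `H235.SpecEner`) -/
def SpecEnF (p : ℝ) : Prop :=
  ∀ C₁ : ℝ, 1 ≤ C₁ → ∃ C > 0, ∀ (C₀ θ ν κ : ℝ) (m₀ : ℕ) (Λ : Set V) (f : V → V) (F : V → Mat)
    (D : VData2 p C₀ θ κ m₀ Λ f F), 0 < θ → θ ≤ 1 / 2 → 0 < ν → ν ≤ 1 / 4 → κ ≤ ν * θ →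
    ∀ ε : ℝ, 0 < ε → ∃ r₀ > 0, ∃ ε₂ > 0, ∀ (Cu : ℝ) (Lc : M3 → ℝ) (δ : ℝ) (j : ℕ)
      (X : R2 p Cu Lc δ j ε (Bx (H235.fl θ)) Λ (cmp (H235.fl θ) f) (cmpD (H235.fl θ) F) D.v)
      (nS : ℕ) (a b : Fin 3 → ℤ),
      (a 2 : ℝ) / 2 ^ nS = D.B / 2 ^ m₀ → (∀ i, i ≠ 2 → a i < b i) →
      (∀ A : Set V, enX X A ≤ ENNReal.ofReal C₁ *
        (∫⁻ y in {y | y ∈ Bx (H235.fl θ) ∧ infDist y A ≤ r₀},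
          HF p (Bx (H235.fl θ)) (cmpD (H235.fl θ) F) y) + ENNReal.ofReal ε₂) →
      EnB C θ ν X nS a b

/-- **[PL-F]** the middle plane -/
def SpecPlF : Prop :=
  ∀ (p Cu : ℝ) (Lc : M3 → ℝ) (δ : ℝ) (j : ℕ) (ε θ ν τ : ℝ) (Λ : Set V) (f : V → V)
    (F : V → Mat) (v : V) (X : R2 p Cu Lc δ j ε (Bx (H235.fl θ)) Λ f F v) (I : Set Idx)
    (k₁ : Idx → ℕ) (m₀ nS : ℕ) (B : ℤ) (α β : Fin 3 → ℤ), 0 < θ → 0 < ν →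
    |v 2 + B / 2 ^ m₀ - θ| ≤ 1 / 2 ^ m₀ → 1 / 2 ^ m₀ ≤ τ →
    α 2 = B → α 0 < β 0 → β 1 - α 1 = β 0 - α 0 →
    (β 0 - α 0 ≤ 2 ^ m₀ ∧ (2:ℤ) ^ m₀ ≤ 2 * (β 0 - α 0)) → Rg v m₀ α β ⊆ Bx (H235.fl θ) →
    (∀ x ∈ Bx 1 ∩ Co 1 (ν / 2) {0, 1}, ∀ j, j ≠ 2 →
        v j + α j / 2 ^ m₀ ≤ x j ∧ x j ≤ v j + β j / 2 ^ m₀) →
    X.I₁ = H696.part1 v X.K X.n k₁ I → (∀ k ∈ X.K, Disjoint (dyc v k.1 k.2) (Rg v m₀ α β)) →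
    m₀ ≤ nS → (∀ x ∈ Rg v m₀ α β, ∀ q ∈ I, x ∈ dyc v q.1 q.2 → q.1 = nS) →
    PlB θ ν τ X nS (up m₀ nS α) (up m₀ nS β)

/-- **[TG-F]** the target near the middle plane. `G₃`: the good squares of `SpecPlateB`. -/
def SpecTgF : Prop :=
  ∀ (p Cu : ℝ) (Lc : M3 → ℝ) (δ : ℝ) (j : ℕ) (ε : ℝ) (Ω Λ : Set V) (f : V → V)
    (F : V → Mat) (v : V) (X : R2 p Cu Lc δ j ε Ω Λ f F v) (m₀ n₃ nS mt : ℕ)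
    (α β : Fin 3 → ℤ) (G₃ : Finset (Fin 3 → ℤ)) (ι : Type) (lo hi : ι → V) (R : ι → ℝ)
    (b r c : ℝ) (Kc : Set V) (gg : V → V), 0 < r → 0 < c → c ≤ δ / 4 →
    (∀ i, i ≠ 2 → α i < β i) → Rg v m₀ α β ⊆ Ω → m₀ ≤ n₃ → n₃ ≤ nS →
    (∀ k ∈ G₃, ∃ k₀ ∈ rect α β, squ v ((n₃, k), 2) ⊆ squ v ((m₀, k₀), 2)) →
    ((rect α β).card : ℝ) / 4 ^ m₀ - (G₃.card : ℝ) / 4 ^ n₃ ≤ ε →
    (∀ k ∈ G₃, ∃ z, ∀ x ∈ squ v ((n₃, k), 2), ∀ y, ‖y - f x‖ ≤ r →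
      |y 2 - lo z 2| ≤ b * (R z - dd 2 (lo z) (hi z) y) - r) →
    (∀ x ∈ Rg v m₀ α β, ∀ y, ‖y - f x‖ ≤ r → y ∈ Kc) →
    (∀ k ∈ X.K, Disjoint (dyc v k.1 k.2) (Rg v m₀ α β)) →
    (∀ x ∈ Rg v m₀ α β, ‖X.h₁.toFun x - f x‖ ≤ r) →
    (∀ k ∈ rect (up m₀ nS α) (up m₀ nS β), MinSq v X.I₁ ((nS, k), 2)) →
    (∀ a ∈ Ω, X.δs a ≤ c / 2 ^ mt) →
    TgtP c ε b lo hi R r Kc Λ X.ρ mt gg X.Tt.toFun →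
    ∃ G : Finset (Fin 3 → ℤ), TgB c X nS (up m₀ nS α) (up m₀ nS β) mt G gg

/-- **[ED-F]** the edges of the middle plane (from `H235.SpecXE`) -/
def SpecEdF (p : ℝ) : Prop :=
  ∃ K > 0, ∀ (C₀ θ κ : ℝ) (m₀ : ℕ) (Λ : Set V) (f : V → V) (F : V → Mat), 0 < θ →
    θ ≤ 1 / 2 → 0 < κ → ∀ (D : VData2 p C₀ θ κ m₀ Λ f F) (α β : Fin 3 → ℤ), α 2 = D.B →
    (∀ j, j ≠ 2 → α j < β j) → Rg D.v m₀ α β ⊆ Bx (H235.fl θ) → (rect α β).card ≤ 4 ^ m₀ →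
    ∀ δ₁ : ℝ, 0 < δ₁ → ∃ l₀ : ℕ, ∀ l ≥ l₀, m₀ ≤ D.nn l →
    ∀ (Cu : ℝ) (Lc : M3 → ℝ) (δ : ℝ) (j : ℕ) (ε : ℝ)
      (X : R2 p Cu Lc δ j ε (Bx (H235.fl θ)) Λ (cmp (H235.fl θ) f) (cmpD (H235.fl θ) F) D.v)
      (b : ℝ), 0 < b → b ≤ 1 → K * (κ + δ₁ + b) ≤ ε →
      (∀ i, i ≠ 2 → ∀ k ∈ redge (up m₀ (D.nn l) α) (up m₀ (D.nn l) β) i,
        eInt D.v ((D.nn l, k), i) (fun x => ENNReal.ofReal ‖lineDeriv ℝ X.h₁.toFun x (ev i) -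
          cl (cmpD (H235.fl θ) F x) (ev i)‖) ≤ ENNReal.ofReal (b / 2 ^ D.nn l)) →
      ∃ Xe, EdB X (D.nn l) (up m₀ (D.nn l) α) (up m₀ (D.nn l) β) Xe

/-- **(F9) [PRE-F]** the assembly, with the sub-lemmas (239, 726) -/
def SpecPreFAsm (p : ℝ) : Prop :=
  SpecVB → SpecRectQ → SpecBoxAt p → SpecPlateB → SpecTgtF → SpecDomL → K3C p → SpecChain p →
    SpecEnF p → SpecPlF → SpecTgF → SpecEdF p → SpecPreF p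

end Vale.Agent.P073.H239
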