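import Vale.Agent.P073.H239.FSpec1
import Vale.Agent.P073.H239.FSpec2
import Vale.Agent.P073.H407.PostF
import Vale.Agent.P073.H407.PostB
import Vale.Agent.P073.H911.BoxAt
import Vale.Agent.P073.H194.DomL
import Vale.Agent.P073.H83.RectQ
import Vale.Agent.P073.H83.VB
import Vale.Agent.P073.H582.EdB
import Vale.Agent.P073.H953.EnF2
import Vale.Agent.P073.H193.PlF
import Vale.Agent.P073.H51.PlB
import Vale.Agent.P073.H79.SegB
import Vale.Agent.P073.H16.RectB
import Vale.Agent.P073.H253.Rk1Lt

/-!
# P073, block B10: the producers of rank two and one, `p ≥ 3`, from the open leaves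
-/

namespace Vale.Agent.P073.H239

open Vale.Agent.P073
open Vale.Agent.P073.H304 (K3C)
open Vale.Agent.P073.H235 (P1 P2)
open Vale.Agent.P073.H190 (SpecConBeamTB)

/-- the open leaves of rank two -/
structure OpenF (p : ℝ) : Prop where
  plateB : SpecPlateB
  tgtF : SpecTgtF
  chain : SpecChain p
  tgF : SpecTgF
  asm : SpecPreFAsm p
  r2f : SpecR2F p
  rows : SpecRowsB

theorem specConFlatB {p : ℝ} (hp : 3 ≤ p) (hK : K3C p) (H : OpenF p) : SpecConFlatB p P2 :=
  specConFlatB_of hK
    (H.asm H83.specVB H83.specRectQ (H911.specBoxAt hp) H.plateB H.tgtF H194.specDomL hK H.chain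
      (H953.specEnF (by linarith)) H193.specPlF H.tgF (H582.specEdF (by linarith)))
    (H407.specPostFOf (by linarith) H.r2f H.rows)

/-- the open leaves of rank one -/
structure OpenB (p : ℝ) : Prop where
  bvb : SpecBVB
  tgtF : SpecTgtF1
  chain : SpecChain p
  enB : SpecEnB p
  epB : SpecEpB p
  tgB : SpecTgB
  edB : SpecEdB p
  asm : SpecPreBAsm p
  r2b : SpecR2B p
  line : SpecLineB

theorem specConBeamTB {p : ℝ} (hp : 3 ≤ p) (hK : K3C p) (H : OpenB p) : SpecConBeamTB p P1 :=
  specConBeamTB_of hK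
    (H.asm H.bvb H16.specRectB (H911.specBoxAt hp) H79.SegB.specSegB H.tgtF H194.specDomL hK
      H.chain H.enB H51.specPlB H.epB H.tgB H.edB)
    (H407.specPostBAsm (by linarith) H.r2b H.line H253.specLineOK H193.specPlaneSum)

end Vale.Agent.P073.H239
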