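import Vale.Agent.P073.H726.Adapt
import Vale.Agent.P073.H851.Unif

/-!
# P073, block B10 (ALIGN-T0): generalised collapses

`GC N C m Λ V₀ X T`: `T : Λ → Λ` is a limit of homeomorphisms, `C`-Lipschitz in the Euclidean norm,
maps `V₀` to `X`, is affine with invertible linear part (bound `m`) off `X`, and `X` is locally
contained in `N` planes.  The output `Coll` of the collapse theorem is of this form (`N = 16`,
`C = 1 + h`), and it stays of this form after the collapse of the neighbourhoods of plates.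
-/

open Set Metric Topology Filter WithLp MeasureTheory Matrix
open scoped ENNReal InnerProductSpace

namespace Vale.Agent.P073.H239

open _root_.P073
open Vale.Agent.P073.St (V)
open Vale.Agent.P073.H471 (Cubes)
open Vale.Agent.P073.H726 (Coll LBOn CollLite)
open Vale.Agent.P073.H851 (M3 bddM)

/-- `T` is approximated by homeomorphisms `g` of `Λ`: closeness `δ`, equal to `T` at distance `> δ`
from `X`, Euclidean Lipschitz constant `C + ε` -/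
def Approx (C : ℝ) (Λ X : Set V) (T : V → V) : Prop :=
  ∀ δ : V → ℝ, LBOn Λ δ → ∀ ε > 0, ∃ g : ConHomeo Λ Λ, Continuous g.toFun ∧
    (∀ y ∉ Λ, g.toFun y = y) ∧ (∀ y ∈ Λ, ‖g.toFun y - T y‖ ≤ δ (T y)) ∧
    (∀ y ∈ Λ, (∀ x ∈ X, δ (T y) < ‖T y - x‖) → g.toFun y = T y) ∧
    ∀ y y', ‖toLp 2 (g.toFun y - g.toFun y')‖ ≤ (C + ε) * ‖toLp 2 (y - y')‖

/-- generalised collapse -/
structure GC (N : ℕ) (C m : ℝ) (Λ V₀ X : Set V) (T : V → V) : Prop where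
  opn : IsOpen Λ
  bdd : Bornology.IsBounded Λ
  C0 : 0 ≤ C
  cont : Continuous T
  lip : ∀ y y', ‖toLp 2 (T y - T y')‖ ≤ C * ‖toLp 2 (y - y')‖
  off : ∀ y ∉ Λ, T y = y
  maps : MapsTo T Λ Λ
  Xsub : X ⊆ Λ
  Xcl : IsClosed (X ∪ Λᶜ)
  planes : ∀ x ∈ Λ, ∃ s : Finset ((V →L[ℝ] ℝ) × ℝ), s.card ≤ N ∧ (∀ q ∈ s, q.1 ≠ 0) ∧
    ∀ᶠ x' in 𝓝 x, x' ∈ X → ∃ q ∈ s, q.1 x' = q.2
  V0X : ∀ y ∈ Λ, y ∈ V₀ → T y ∈ X
  aff : ∀ D ⊆ Λ \ X, IsPreconnected D → ∃ M ∈ bddM m, ∃ w : V, ∀ y, T y ∈ D →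
    ∀ᶠ y' in 𝓝 y, T y' = M *ᵥ y' - w
  approx : Approx C Λ X T

/-- a size function adapted to the collapse, `N` planes (generalises `H726.Adapted`) -/
structure AdaptedN (N : ℕ) (Λ X : Set V) (T : V → V) (δ : V → ℝ) (ν : Measure V) (ε : ℝ≥0∞)
    (s : V → ℝ) : Prop where
  lip : ∀ x y, s x ≤ s y + ‖x - y‖
  pos : ∀ x ∈ Λ, 0 < s x
  off : ∀ x ∉ Λ, s x ≤ 0
  planes : ∀ x ∈ Λ, ∃ q : Finset ((V →L[ℝ] ℝ) × ℝ), q.card ≤ N ∧ (∀ p ∈ q, p.1 ≠ 0) ∧
    ∀ x' ∈ closedBall x (s x), x' ∈ X → ∃ p ∈ q, p.1 x' = p.2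
  close : ∀ y ∈ Λ, s (T y) ≤ δ y
  vol : ν {y | y ∈ Λ ∧ T y ∉ X ∧ ∃ x' ∈ X, ‖T y - x'‖ ≤ s (T y)} ≤ ε

variable {Λ V₀ X : Set V} {h : ℝ} {T : V → V}

theorem smul_one_mulVec (a : ℝ) (y : V) : (a • (1 : M3)) *ᵥ y = a • y := by
  rw [Matrix.smul_mulVec, Matrix.one_mulVec]

theorem smul_one_mem_bddM {a m : ℝ} (h1 : 1 ≤ a) (hm : a ≤ m) : (a • (1 : M3)) ∈ bddM m := by
  refine ⟨fun y => ?_, fun y => ?_⟩
  · rw [smul_one_mulVec, norm_smul, Real.norm_of_nonneg (by linarith)]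
    gcongr
  · rw [smul_one_mulVec, norm_smul, Real.norm_of_nonneg (by linarith), ← mul_assoc]
    have : 1 * ‖y‖ ≤ m * a * ‖y‖ := by
      gcongr
      nlinarith
    linarith

/-- the output of the collapse theorem is a generalised collapse -/
theorem gc_of_coll (C : Coll Λ V₀ X h T) {m : ℝ} (hm : 1 + h ≤ m) :
    GC 16 (1 + h) m Λ V₀ X T where
  opn := C.opn
  bdd := C.bdd
  C0 := by linarith [C.h0]
  cont := C.continuous
  lip y y' := H726.vs_lip C.h0 (C.firm y y')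
  off := C.off
  maps := C.maps
  Xsub := C.Xsub
  Xcl := C.Xcl
  planes := C.planes
  V0X := C.V0X
  aff D hD hc := by
    obtain ⟨w, hw⟩ := C.aff D hD hc
    refine ⟨(1 + h) • (1 : M3), smul_one_mem_bddM (by linarith [C.h0]) hm, w, fun y hy => ?_⟩
    filter_upwards [hw y hy] with y' hy'
    rw [hy', smul_one_mulVec]
  approx δ hδ ε hε := by
    obtain ⟨g, h1, h2, h3, h4, h5⟩ := H726.exists_var_slope C.lite hδ (fun y hy => hδ.pos hy) hε
    refine ⟨g, h1, h2, h3, h4, fun y y' => ?_⟩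
    have e1 : toLp 2 (g.toFun y - g.toFun y') =
        toLp 2 ((g.toFun y - T y) - (g.toFun y' - T y')) + toLp 2 (T y - T y') := by
      rw [← toLp_add]; congr 1; abel
    rw [e1]
    refine (norm_add_le _ _).trans ?_
    have := H726.vs_lip C.h0 (C.firm y y')
    linarith [h5 y y']

end Vale.Agent.P073.H239
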