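import Vale.Agent.P073.H239.GC

/-!
# P073, block B10 (ALIGN-T0): composition of generalised collapses

If `T` is a generalised collapse and `T₀` is a generalised collapse whose inverse is given, off
`X₀`, by finitely many affine maps (locally), then `T₀ ∘ T` is a generalised collapse.
-/

open Set Metric Topology Filter WithLp MeasureTheory Matrix
open scoped ENNReal InnerProductSpace

namespace Vale.Agent.P073.H239

open _root_.P073
open Vale.Agent.P073.St (V)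
open Vale.Agent.P073.H471 (Cubes)
open Vale.Agent.P073.H726 (Coll LBOn CollLite)
open Vale.Agent.P073.H851 (M3 bddM)

variable {Λ V₀ X X₀ : Set V} {T T₀ : V → V}

/-- the inverse of `T₀` is given, off `X₀`, locally by at most `n₀` affine maps -/
structure InvN (n₀ : ℕ) (m₀ : ℝ) (Λ X₀ : Set V) (T₀ : V → V) : Prop where
  surj : ∀ u ∈ Λ, ∃ v ∈ Λ, T₀ v = u
  inv : ∀ x ∈ Λ, ∃ s : Finset (M3 × V), s.card ≤ n₀ ∧
    (∀ a ∈ s, a.1 ∈ bddM m₀ ∧ a.1 *ᵥ x - a.2 ∈ Λ) ∧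
    ∀ᶠ u in 𝓝 x, u ∉ X₀ → ∀ v, T₀ v = u → ∃ a ∈ s, v = a.1 *ᵥ u - a.2

theorem inv_mem_bddM {m : ℝ} {M : M3} (h : M ∈ bddM m) : M⁻¹ ∈ bddM m := by
  have hd : IsUnit M.det := isUnit_iff_ne_zero.2 (H851.det_ne_zero_of_bdd h)
  have h1 : ∀ y : V, M *ᵥ (M⁻¹ *ᵥ y) = y := fun y => by
    rw [Matrix.mulVec_mulVec, Matrix.mul_nonsing_inv _ hd, Matrix.one_mulVec]
  constructor
  · intro y
    have := h.2 (M⁻¹ *ᵥ y)
    rwa [h1] at this
  · intro y
    have := h.1 (M⁻¹ *ᵥ y)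
    rwa [h1] at this

theorem norm_toLp_le (y : V) : ‖toLp 2 y‖ ≤ 2 * ‖y‖ := by
  rw [EuclideanSpace.norm_eq]
  have h1 : ∀ i, ‖y i‖ ^ 2 ≤ ‖y‖ ^ 2 := fun i => by
    have := norm_le_pi_norm y i
    gcongr
  have h2 : ∑ i : Fin 3, ‖(toLp 2 y) i‖ ^ 2 ≤ (2 * ‖y‖) ^ 2 := by
    rw [Fin.sum_univ_three]
    have a := h1 0
    have b := h1 1
    have c := h1 2
    have e : ∀ i : Fin 3, (toLp 2 y) i = y i := fun i => rfl
    rw [e, e, e]
    nlinarith [norm_nonneg y]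
  calc √(∑ i : Fin 3, ‖(toLp 2 y) i‖ ^ 2) ≤ √((2 * ‖y‖) ^ 2) := Real.sqrt_le_sqrt h2
    _ = 2 * ‖y‖ := Real.sqrt_sq (by positivity)

theorem norm_le_toLp (y : V) : ‖y‖ ≤ ‖toLp 2 y‖ := H726.norm_le_eu y

theorem LBOn.comp {δ : V → ℝ} (hδ : LBOn Λ δ) (hc : Continuous T₀) (hm : MapsTo T₀ Λ Λ) {c : ℝ}
    (hc0 : 0 < c) : LBOn Λ fun x => c * δ (T₀ x) := by
  intro x hx
  obtain ⟨a, ha, h1⟩ := hδ _ (hm hx)
  refine ⟨c * a, by positivity, ?_⟩
  filter_upwards [hc.continuousAt.eventually h1] with w hw hwΛ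
  exact mul_le_mul_of_nonneg_left (hw (hm hwΛ)) hc0.le

theorem LBOn.cmul {δ : V → ℝ} (hδ : LBOn Λ δ) {c : ℝ} (hc0 : 0 < c) :
    LBOn Λ fun x => c * δ x := by
  intro x hx
  obtain ⟨a, ha, h1⟩ := hδ _ hx
  refine ⟨c * a, by positivity, ?_⟩
  filter_upwards [h1] with w hw hwΛ
  exact mul_le_mul_of_nonneg_left (hw hwΛ) hc0.le

/-- **composition of approximable maps** -/
theorem Approx.comp {C C₀ : ℝ} (hC : 0 ≤ C) (hC₀ : 0 ≤ C₀) (h : Approx C Λ X T)
    (h₀ : Approx C₀ Λ X₀ T₀) (hT : MapsTo T Λ Λ) (hc₀ : Continuous T₀) (hm₀ : MapsTo T₀ Λ Λ)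
    (hlip₀ : ∀ y y', ‖toLp 2 (T₀ y - T₀ y')‖ ≤ C₀ * ‖toLp 2 (y - y')‖) :
    Approx (C₀ * C) Λ (T₀ '' X ∪ X₀) (fun y => T₀ (T y)) := by
  intro δ hδ ε hε
  obtain ⟨g₀, a1, a2, a3, a4, a5⟩ := h₀ (fun x => 1 / 2 * δ x) (LBOn.cmul hδ (by norm_num))
    (ε / (2 * (C + 1))) (by positivity)
  set c : ℝ := 1 / (4 * (C₀ + ε / (2 * (C + 1)))) with hc
  have hC0' : 0 < C₀ + ε / (2 * (C + 1)) := by positivity
  have hcp : 0 < c := by positivity
  obtain ⟨g, b1, b2, b3, b4, b5⟩ := h (fun x => c * δ (T₀ x)) (LBOn.comp hδ hc₀ hm₀ hcp)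
    (min 1 (ε / (2 * (C₀ + 1)))) (by positivity)
  have hc4 : 2 * (C₀ + ε / (2 * (C + 1))) * c = 1 / 2 := by
    rw [hc]; field_simp; norm_num
  have hc4' : 2 * C₀ * c ≤ 1 / 2 := by
    rw [← hc4]
    have : 0 ≤ ε / (2 * (C + 1)) := by positivity
    gcongr
    linarith
  have key : ∀ y ∈ Λ, 0 ≤ δ (T₀ (T y)) := fun y hy => (hδ.pos (hm₀ (hT hy))).le
  refine ⟨g.trans g₀, a1.comp b1, fun y hy => ?_, fun y hy => ?_, fun y hy hX => ?_,
    fun y y' => ?_⟩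
  · show g₀.toFun (g.toFun y) = y
    rw [b2 y hy, a2 y hy]
  · show ‖g₀.toFun (g.toFun y) - T₀ (T y)‖ ≤ δ (T₀ (T y))
    have e1 := a3 (T y) (hT hy)
    have e2 := (norm_le_toLp _).trans (a5 (g.toFun y) (T y))
    have e3 := norm_toLp_le (g.toFun y - T y)
    have e4 := b3 y hy
    have e5 : (C₀ + ε / (2 * (C + 1))) * ‖toLp 2 (g.toFun y - T y)‖ ≤
        (C₀ + ε / (2 * (C + 1))) * (2 * (c * δ (T₀ (T y)))) := by
      gcongr
      linarith
    have e6 : (C₀ + ε / (2 * (C + 1))) * (2 * (c * δ (T₀ (T y)))) = 1 / 2 * δ (T₀ (T y)) := by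
      rw [← hc4]; ring
    have e7 : g₀.toFun (g.toFun y) - T₀ (T y) =
        (g₀.toFun (g.toFun y) - g₀.toFun (T y)) + (g₀.toFun (T y) - T₀ (T y)) := by abel
    rw [e7]
    refine (norm_add_le _ _).trans ?_
    linarith
  · have e1 : g.toFun y = T y := by
      apply b4 y hy
      intro x hx
      by_contra hcon
      push Not at hcon
      have k1 := hX (T₀ x) (Or.inl ⟨x, hx, rfl⟩)
      have k2 := (norm_le_toLp _).trans (hlip₀ (T y) x)
      have k3 := norm_toLp_le (T y - x)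
      have k4 : C₀ * ‖toLp 2 (T y - x)‖ ≤ C₀ * (2 * (c * δ (T₀ (T y)))) := by
        gcongr
        linarith
      have k5 : C₀ * (2 * (c * δ (T₀ (T y)))) ≤ 1 / 2 * δ (T₀ (T y)) := by
        have := mul_le_mul_of_nonneg_right hc4' (key y hy)
        linarith
      have k6 := key y hy
      linarith
    show g₀.toFun (g.toFun y) = T₀ (T y)
    rw [e1]
    apply a4 (T y) (hT hy)
    intro x hx
    have k1 := hX x (Or.inr hx)
    have k6 := key y hy
    linarith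
  · show ‖toLp 2 (g₀.toFun (g.toFun y) - g₀.toFun (g.toFun y'))‖ ≤ _
    refine (a5 _ _).trans ?_
    have k1 := b5 y y'
    have k2 : (C₀ + ε / (2 * (C + 1))) * ‖toLp 2 (g.toFun y - g.toFun y')‖ ≤
        (C₀ + ε / (2 * (C + 1))) * ((C + min 1 (ε / (2 * (C₀ + 1)))) * ‖toLp 2 (y - y')‖) := by
      gcongr
    refine k2.trans ?_
    rw [← mul_assoc]
    gcongr
    set e := min 1 (ε / (2 * (C₀ + 1))) with he
    have he1 : e ≤ 1 := min_le_left _ _
    have he2 : e ≤ ε / (2 * (C₀ + 1)) := min_le_right _ _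
    have he0 : 0 < e := by positivity
    have k3 : ε / (2 * (C + 1)) * (C + e) ≤ ε / 2 := by
      have : ε / (2 * (C + 1)) * (C + e) ≤ ε / (2 * (C + 1)) * (C + 1) := by gcongr
      refine this.trans (le_of_eq ?_)
      field_simp
    have k4 : C₀ * e ≤ ε / 2 := by
      have : C₀ * e ≤ C₀ * (ε / (2 * (C₀ + 1))) := by gcongr
      refine this.trans ?_
      have h1 : C₀ * (ε / (2 * (C₀ + 1))) = ε / 2 * (C₀ / (C₀ + 1)) := by field_simp
      rw [h1]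
      have h2 : C₀ / (C₀ + 1) ≤ 1 := by rw [div_le_one (by linarith)]; linarith
      nlinarith
    nlinarith

/-- images of closed sets -/
theorem GC.isClosed_image {N : ℕ} {C m : ℝ} (G : GC N C m Λ V₀ X T) {A : Set V}
    (hA : IsClosed A) : IsClosed (T '' A) := by
  have hcl : IsCompact (closure Λ) := G.bdd.isCompact_closure
  have h1 : T '' A = T '' (A ∩ closure Λ) ∪ (A ∩ Λᶜ) := by
    ext u
    constructor
    · rintro ⟨v, hv, rfl⟩
      by_cases hvΛ : v ∈ Λ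
      · exact Or.inl ⟨v, ⟨hv, subset_closure hvΛ⟩, rfl⟩
      · right
        rw [G.off v hvΛ]
        exact ⟨hv, hvΛ⟩
    · rintro (⟨v, hv, rfl⟩ | hu)
      · exact ⟨v, hv.1, rfl⟩
      · exact ⟨u, hu.1, G.off u hu.2⟩
  rw [h1]
  refine IsClosed.union ?_ (hA.inter G.opn.isClosed_compl)
  exact ((hcl.inter_left hA).image G.cont).isClosed

/-- **composition of generalised collapses** -/
theorem GC.comp {N N₀ n₀ : ℕ} {C C₀ m m₀ : ℝ} (G : GC N C m Λ V₀ X T)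
    (G₀ : GC N₀ C₀ m₀ Λ ∅ X₀ T₀) (I : InvN n₀ m₀ Λ X₀ T₀) (hm₀ : 0 ≤ m₀) :
    GC (n₀ * N + N₀) (C₀ * C) (m₀ * m) Λ V₀ (T₀ '' X ∪ X₀) (fun y => T₀ (T y)) where
  opn := G.opn
  bdd := G.bdd
  C0 := mul_nonneg G₀.C0 G.C0
  cont := G₀.cont.comp G.cont
  lip y y' := by
    refine (G₀.lip _ _).trans ?_
    rw [mul_assoc]
    exact mul_le_mul_of_nonneg_left (G.lip y y') G₀.C0
  off y hy := by
    show T₀ (T y) = y
    rw [G.off y hy, G₀.off y hy]
  maps := G₀.maps.comp G.maps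
  Xsub := union_subset ((image_mono G.Xsub).trans G₀.maps.image_subset) G₀.Xsub
  Xcl := by
    have h1 : T₀ '' X ∪ X₀ ∪ Λᶜ = T₀ '' (X ∪ Λᶜ) ∪ (X₀ ∪ Λᶜ) := by
      have h2 : T₀ '' Λᶜ = Λᶜ := by
        ext u
        constructor
        · rintro ⟨v, hv, rfl⟩
          rw [G₀.off v hv]; exact hv
        · intro hu
          exact ⟨u, hu, G₀.off u hu⟩
      rw [image_union, h2]
      ext u
      simp only [mem_union]
      tauto
    rw [h1]
    exact (G₀.isClosed_image G.Xcl).union G₀.Xcl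
  planes x hx := by
    classical
    obtain ⟨s₀, c₀, z₀, p₀⟩ := G₀.planes x hx
    obtain ⟨s, hs, hsa, hse⟩ := I.inv x hx
    have hP : ∀ a : M3 × V, a ∈ s → ∃ t : Finset ((V →L[ℝ] ℝ) × ℝ), t.card ≤ N ∧
        (∀ q ∈ t, q.1 ≠ 0) ∧ ∀ᶠ u in 𝓝 x, a.1 *ᵥ u - a.2 ∈ X → ∃ q ∈ t, q.1 u = q.2 := by
      intro a ha
      obtain ⟨hb, hxΛ⟩ := hsa a ha
      obtain ⟨t, ht, hz, hp⟩ := G.planes _ hxΛ
      set L : V →L[ℝ] V := LinearMap.toContinuousLinearMap (Matrix.mulVecLin a.1) with hL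
      have hLa : ∀ u, L u = a.1 *ᵥ u := fun u => rfl
      refine ⟨t.image fun q => (q.1.comp L, q.2 + q.1 a.2), Finset.card_image_le.trans ht, ?_, ?_⟩
      · intro q hq
        obtain ⟨q', hq', rfl⟩ := Finset.mem_image.1 hq
        simp only
        intro h0
        apply hz q' hq'
        ext1 y
        have hd : IsUnit a.1.det := isUnit_iff_ne_zero.2 (H851.det_ne_zero_of_bdd hb)
        have e1 : L (a.1⁻¹ *ᵥ y) = y := by
          rw [hLa, Matrix.mulVec_mulVec, Matrix.mul_nonsing_inv _ hd, Matrix.one_mulVec]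
        have e2 := DFunLike.congr_fun h0 (a.1⁻¹ *ᵥ y)
        rw [ContinuousLinearMap.comp_apply, e1] at e2
        simpa using e2
      · have hcont : ContinuousAt (fun u : V => a.1 *ᵥ u - a.2) x := by
          have : Continuous fun u : V => L u - a.2 := by fun_prop
          exact this.continuousAt
        filter_upwards [hcont.eventually hp] with u hu huX
        obtain ⟨q, hq, hqe⟩ := hu huX
        refine ⟨_, Finset.mem_image.2 ⟨q, hq, rfl⟩, ?_⟩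
        simp only [ContinuousLinearMap.comp_apply]
        rw [map_sub] at hqe
        rw [hLa]; linarith
    choose! P hPc hPz hPe using hP
    refine ⟨s.biUnion P ∪ s₀, ?_, ?_, ?_⟩
    · refine (Finset.card_union_le _ _).trans (add_le_add ?_ c₀)
      refine Finset.card_biUnion_le.trans ((Finset.sum_le_card_nsmul s _ N hPc).trans ?_)
      rw [smul_eq_mul]
      exact Nat.mul_le_mul_right N hs
    · intro q hq
      rcases Finset.mem_union.1 hq with h | h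
      · obtain ⟨a, ha, hqa⟩ := Finset.mem_biUnion.1 h
        exact hPz a ha q hqa
      · exact z₀ q h
    · have hall : ∀ᶠ u in 𝓝 x, ∀ a ∈ s, a.1 *ᵥ u - a.2 ∈ X → ∃ q ∈ P a, q.1 u = q.2 :=
        (Finset.eventually_all s).2 fun a ha => hPe a ha
      filter_upwards [p₀, hse, hall] with u h1 h2 h3 hu
      by_cases hu0 : u ∈ X₀
      · obtain ⟨q, hq, hqe⟩ := h1 hu0
        exact ⟨q, Finset.mem_union_right _ hq, hqe⟩
      · rcases hu with ⟨v, hv, hvu⟩ | hu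
        · obtain ⟨a, ha, hav⟩ := h2 hu0 v hvu
          obtain ⟨q, hq, hqe⟩ := h3 a ha (by rw [← hav]; exact hv)
          exact ⟨q, Finset.mem_union_left _ (Finset.mem_biUnion.2 ⟨a, ha, hq⟩), hqe⟩
        · exact absurd hu hu0
  V0X y hy hy0 := Or.inl ⟨T y, G.V0X y hy hy0, rfl⟩
  aff D hD hDc := by
    have hD₀ : D ⊆ Λ \ X₀ := fun u hu => ⟨(hD hu).1, fun h => (hD hu).2 (Or.inr h)⟩
    obtain ⟨M, hM, w, hw⟩ := G₀.aff D hD₀ hDc
    have hd : IsUnit M.det := isUnit_iff_ne_zero.2 (H851.det_ne_zero_of_bdd hM)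
    have hinv : ∀ v, T₀ v ∈ D → v = M⁻¹ *ᵥ (T₀ v + w) := fun v hv => by
      have := (hw v hv).self_of_nhds
      rw [this, sub_add_cancel, Matrix.mulVec_mulVec, Matrix.nonsing_inv_mul _ hd,
        Matrix.one_mulVec]
    set D₁ : Set V := (fun u : V => M⁻¹ *ᵥ (u + w)) '' D with hD₁
    have hc1 : Continuous fun u : V => M⁻¹ *ᵥ (u + w) :=
      continuous_const.matrix_mulVec (by fun_prop)
    have hD₁c : IsPreconnected D₁ := hDc.image _ hc1.continuousOn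
    have hD₁s : D₁ ⊆ Λ \ X := by
      rintro _ ⟨u, hu, rfl⟩
      obtain ⟨v, hv, hvu⟩ := I.surj u (hD hu).1
      have e1 : M⁻¹ *ᵥ (u + w) = v := by
        rw [← hvu]; exact (hinv v (by rw [hvu]; exact hu)).symm
      simp only
      rw [e1]
      exact ⟨hv, fun hX => (hD hu).2 (Or.inl ⟨v, hX, hvu⟩)⟩
    obtain ⟨M₁, hM₁, w₁, hw₁⟩ := G.aff D₁ hD₁s hD₁c
    refine ⟨M * M₁, H851.mul_mem_bddM hm₀ hM hM₁, M *ᵥ w₁ + w, fun y hy => ?_⟩
    have h1 : T y ∈ D₁ := ⟨T₀ (T y), hy, (hinv (T y) hy).symm⟩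
    filter_upwards [hw₁ y h1, G.cont.continuousAt.eventually (hw (T y) hy)] with y' k1 k2
    rw [k2, k1, Matrix.mulVec_sub, Matrix.mulVec_mulVec, sub_sub]
  approx := Approx.comp G.C0 G₀.C0 G.approx G₀.approx G.maps G₀.cont G₀.maps G₀.lip

end Vale.Agent.P073.H239
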