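import Vale.Agent.P073.H239.GCComp
import Vale.Agent.P073.H236.TZero2

/-!
# P073, block B10 (ALIGN-T0): the profile of the collapse of a plate

`pk`: `c + κ r` near the plane `c`, `c + r` at distance `≥ R`; `κ = 0` is the collapse.
-/

open Set Metric Topology Filter

namespace Vale.Agent.P073.H239

open _root_.P073
open _root_.P073.H236 (pl Inc slp pl_piece pl_of_ge pl_of_le pl_strictMono pl_pl pl_continuous
  pl_conicalOn abs_pl_sub_le pl_monotone cl cl_eq)
open Vale.Agent.P073.St (V)

/-- breakpoints -/
def px (c R t : ℝ) : ℕ → ℝ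
  | 0 => c - R
  | 1 => c - t
  | 2 => c + t
  | _ => c + R

/-- values -/
def pv (c R κ t : ℝ) : ℕ → ℝ
  | 0 => c - R
  | 1 => c - κ * t
  | 2 => c + κ * t
  | _ => c + R

/-- the inner breakpoint -/
noncomputable def pt (b R κ : ℝ) : ℝ := b * R / (1 - κ * (1 - b))

/-- the profile -/
noncomputable def pk (c b R κ : ℝ) : ℝ → ℝ := pl 3 (px c R (pt b R κ)) (pv c R κ (pt b R κ))

/-- the inverse profile (for `0 < κ`) -/
noncomputable def pki (c b R κ : ℝ) : ℝ → ℝ := pl 3 (pv c R κ (pt b R κ)) (px c R (pt b R κ))

/-- the hypotheses on the numbers -/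
structure Num (b R κ : ℝ) : Prop where
  b0 : 0 < b
  b1 : b ≤ 1 / 2
  R0 : 0 < R
  k0 : 0 ≤ κ
  k1 : κ < 1

variable {c b R κ : ℝ}

namespace Num

theorem den_pos (H : Num b R κ) : 0 < 1 - κ * (1 - b) := by
  have := H.b0; have := H.b1; have := H.k0; have := H.k1
  nlinarith

theorem pt_eq (H : Num b R κ) : pt b R κ - b * R = κ * (1 - b) * pt b R κ := by
  have h1 : pt b R κ * (1 - κ * (1 - b)) = b * R := div_mul_cancel₀ _ H.den_pos.ne'
  linarith

theorem pt_pos (H : Num b R κ) : 0 < pt b R κ :=
  div_pos (mul_pos H.b0 H.R0) H.den_pos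

theorem pt_lt (H : Num b R κ) : pt b R κ < R := by
  unfold pt
  rw [div_lt_iff₀ H.den_pos]
  have := H.b0; have := H.b1; have := H.k0; have h1 := H.k1; have h2 := H.R0
  have h3 : 0 < (1 - κ) * (1 - b) * R := by
    apply mul_pos (mul_pos _ _) h2 <;> linarith
  nlinarith

theorem inc_px (H : Num b R κ) : Inc 3 (px c R (pt b R κ)) := by
  have h1 := H.pt_pos
  have h2 := H.pt_lt
  intro j hj
  interval_cases j <;> simp only [px] <;> linarith

theorem kt_lt (H : Num b R κ) : κ * pt b R κ < R := by
  have h1 := H.pt_pos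
  have h2 := H.pt_lt
  have h3 := H.k0
  have h4 := H.k1
  nlinarith

theorem inc_pv (H : Num b R κ) (hk : 0 < κ) : Inc 3 (pv c R κ (pt b R κ)) := by
  have h1 : 0 < κ * pt b R κ := mul_pos hk H.pt_pos
  have h2 := H.kt_lt
  intro j hj
  interval_cases j <;> simp only [pv] <;> linarith

theorem mono_pv (H : Num b R κ) : ∀ j < 3, pv c R κ (pt b R κ) j ≤ pv c R κ (pt b R κ) (j + 1) := by
  have h1 : 0 ≤ κ * pt b R κ := mul_nonneg H.k0 H.pt_pos.le
  have h2 := H.kt_lt
  intro j hj
  interval_cases j <;> simp only [pv] <;> linarith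

theorem slp_eq (H : Num b R κ) : (R - κ * pt b R κ) / (R - pt b R κ) = 1 / (1 - b) := by
  have h2 := H.pt_lt
  have h3 := H.pt_eq
  have h4 := H.b1
  rw [div_eq_div_iff (by linarith) (by linarith)]
  nlinarith

theorem inv_le (H : Num b R κ) : 1 / (1 - b) ≤ 1 + 2 * b := by
  have h4 := H.b1
  have h5 := H.b0
  rw [div_le_iff₀ (by linarith)]
  nlinarith

/-- the profile on the upper side -/
theorem pk_up (H : Num b R κ) {r : ℝ} (hr : 0 ≤ r) :
    pk c b R κ (c + r) = c + min r (max (κ * r) ((r - b * R) / (1 - b))) := by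
  have h1 := H.pt_pos
  have h2 := H.pt_lt
  have h3 := H.pt_eq
  have h4 := H.b1
  have h5 := H.b0
  have h6 := H.k0
  have h7 := H.k1
  have hb : 0 < 1 - b := by linarith
  unfold pk
  set t := pt b R κ with ht
  have hkr : κ * r ≤ r := by nlinarith
  rcases le_total r t with hc | hc
  · rw [pl_piece H.inc_px (by norm_num : 1 < 3) (by simp only [px]; linarith)
      (by simp only [px]; linarith)]
    have e1 : slp (px c R t) (pv c R κ t) 1 = κ := by
      unfold slp
      simp only [px, pv]
      rw [div_eq_iff (by linarith)]; ring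
    rw [e1]
    have e2 : (r - b * R) / (1 - b) ≤ κ * r := by
      rw [div_le_iff₀ hb]
      have := H.den_pos
      nlinarith
    rw [max_eq_left e2, min_eq_right hkr]
    simp only [px, pv]; ring
  · rcases le_total r R with hc' | hc'
    · rw [pl_piece H.inc_px (by norm_num : 2 < 3) (by simpa only [px] using by linarith)
        (by simp only [px]; linarith)]
      have e1 : slp (px c R t) (pv c R κ t) 2 = 1 / (1 - b) := by
        unfold slp
        simp only [px, pv]
        rw [← H.slp_eq]
        congr 1 <;> ring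
      rw [e1]
      have e2 : κ * r ≤ (r - b * R) / (1 - b) := by
        rw [le_div_iff₀ hb]
        have := H.den_pos
        nlinarith
      have e3 : (r - b * R) / (1 - b) ≤ r := by
        rw [div_le_iff₀ hb]; nlinarith
      rw [max_eq_right e2, min_eq_right e3]
      simp only [px, pv]
      have e4 : κ * t = (t - b * R) / (1 - b) := by
        rw [h3]; field_simp
      rw [e4]; field_simp; ring
    · rw [pl_of_ge H.inc_px (by simp only [px]; linarith)]
      have e3 : r ≤ (r - b * R) / (1 - b) := by
        rw [le_div_iff₀ hb]; nlinarith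
      rw [min_eq_left (e3.trans (le_max_right _ _))]
      simp only [px, pv]; ring

/-- the profile on the lower side -/
theorem pk_down (H : Num b R κ) {r : ℝ} (hr : 0 ≤ r) :
    pk c b R κ (c - r) = c - min r (max (κ * r) ((r - b * R) / (1 - b))) := by
  have h1 := H.pt_pos
  have h2 := H.pt_lt
  have h3 := H.pt_eq
  have h4 := H.b1
  have h5 := H.b0
  have h6 := H.k0
  have h7 := H.k1
  have hb : 0 < 1 - b := by linarith
  unfold pk
  set t := pt b R κ with ht
  have hkr : κ * r ≤ r := by nlinarith
  rcases le_total r t with hc | hc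
  · rw [pl_piece H.inc_px (by norm_num : 1 < 3) (by simp only [px]; linarith)
      (by simp only [px]; linarith)]
    have e1 : slp (px c R t) (pv c R κ t) 1 = κ := by
      unfold slp
      simp only [px, pv]
      rw [div_eq_iff (by linarith)]; ring
    rw [e1]
    have e2 : (r - b * R) / (1 - b) ≤ κ * r := by
      rw [div_le_iff₀ hb]
      have := H.den_pos
      nlinarith
    rw [max_eq_left e2, min_eq_right hkr]
    simp only [px, pv]; ring
  · rcases le_total r R with hc' | hc'
    · rw [pl_piece H.inc_px (by norm_num : 0 < 3) (by simpa only [px] using by linarith)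
        (by simp only [px]; linarith)]
      have e1 : slp (px c R t) (pv c R κ t) 0 = 1 / (1 - b) := by
        unfold slp
        simp only [px, pv]
        rw [← H.slp_eq]
        congr 1 <;> ring
      rw [e1]
      have e2 : κ * r ≤ (r - b * R) / (1 - b) := by
        rw [le_div_iff₀ hb]
        have := H.den_pos
        nlinarith
      have e3 : (r - b * R) / (1 - b) ≤ r := by
        rw [div_le_iff₀ hb]; nlinarith
      rw [max_eq_right e2, min_eq_right e3]
      simp only [px, pv]
      field_simp
      ring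
    · rw [pl_of_le H.inc_px (by simp only [px]; linarith)]
      have e3 : r ≤ (r - b * R) / (1 - b) := by
        rw [le_div_iff₀ hb]; nlinarith
      rw [min_eq_left (e3.trans (le_max_right _ _))]
      simp only [px, pv]; ring

theorem pk_lip (H : Num b R κ) (s t : ℝ) :
    |pk c b R κ s - pk c b R κ t| ≤ (1 + 2 * b) * |s - t| := by
  have h1 := H.pt_pos
  have h2 := H.pt_lt
  have h5 := H.b0
  have h7 := H.k1
  refine abs_pl_sub_le H.inc_px H.mono_pv (by linarith) (fun j hj => ?_) s t
  have e1 := H.slp_eq
  have e2 := H.inv_le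
  unfold slp
  interval_cases j
  · simp only [px, pv]
    refine le_trans (le_of_eq ?_) e2
    rw [← e1]; congr 1 <;> ring
  · simp only [px, pv]
    have : (c + κ * pt b R κ - (c - κ * pt b R κ)) / (c + pt b R κ - (c - pt b R κ)) = κ := by
      rw [div_eq_iff (by linarith)]; ring
    rw [this]; linarith
  · simp only [px, pv]
    refine le_trans (le_of_eq ?_) e2
    rw [← e1]; congr 1 <;> ring

end Num

/-- the clipped profile on a half line; `e` is the distance in the other coordinates -/
noncomputable def FF (b R κ e r : ℝ) : ℝ :=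
  max (r - b * max 0 (R - e)) (min r (max (κ * r) ((r - b * R) / (1 - b))))

namespace Num

theorem cl_up (H : Num b R κ) {r e : ℝ} (hr : 0 ≤ r) :
    cl (pk c b R κ) (b * max 0 (R - e)) (c + r) = c + FF b R κ e r := by
  unfold cl FF
  have h0 : 0 ≤ b * max 0 (R - e) := mul_nonneg H.b0.le (le_max_left _ _)
  rw [H.pk_up hr, min_eq_right, ← max_add_add_left]
  · congr 1; ring
  · have := min_le_left r (max (κ * r) ((r - b * R) / (1 - b)))
    linarith

theorem cl_down (H : Num b R κ) {r e : ℝ} (hr : 0 ≤ r) :
    cl (pk c b R κ) (b * max 0 (R - e)) (c - r) = c - FF b R κ e r := by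
  unfold cl FF
  have h0 : 0 ≤ b * max 0 (R - e) := mul_nonneg H.b0.le (le_max_left _ _)
  have h1 := min_le_left r (max (κ * r) ((r - b * R) / (1 - b)))
  have h2 : 0 ≤ min r (max (κ * r) ((r - b * R) / (1 - b))) :=
    le_min hr (le_max_of_le_left (mul_nonneg H.k0 hr))
  rw [H.pk_down hr]
  rcases le_total (r - b * max 0 (R - e)) (min r (max (κ * r) ((r - b * R) / (1 - b)))) with h | h
  · rw [max_eq_right h, min_eq_right (by linarith), max_eq_right (by linarith)]
  · rw [max_eq_left h, min_eq_left (by linarith), max_eq_right (by linarith)]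
    ring

theorem FF_nonneg (H : Num b R κ) {r e : ℝ} (hr : 0 ≤ r) : 0 ≤ FF b R κ e r :=
  le_max_of_le_right (le_min hr (le_max_of_le_left (mul_nonneg H.k0 hr)))

theorem FF_le (H : Num b R κ) {r e : ℝ} : FF b R κ e r ≤ r := by
  have h0 : 0 ≤ b * max 0 (R - e) := mul_nonneg H.b0.le (le_max_left _ _)
  exact max_le (by linarith) (min_le_left _ _)

/-- the profile with `κ` and the collapse -/
theorem FF_eq (H : Num b R κ) {r e : ℝ} (hr : 0 ≤ r) :
    FF b R κ e r = max (κ * r) (FF b R 0 e r) := by
  have h1 : κ * r ≤ r := by nlinarith [H.k1]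
  have h2 : 0 ≤ κ * r := mul_nonneg H.k0 hr
  unfold FF
  rw [zero_mul, max_left_comm (κ * r)]
  congr 1
  apply le_antisymm
  · rcases le_total ((r - b * R) / (1 - b)) (κ * r) with h | h
    · rw [max_eq_left h, min_eq_right h1]; exact le_max_left _ _
    · rw [max_eq_right h]
      exact le_max_of_le_right (min_le_min le_rfl (le_max_right _ _))
  · refine max_le (le_min h1 (le_max_left _ _)) (min_le_min le_rfl ?_)
    exact max_le (le_max_of_le_left h2) (le_max_right _ _)

/-- outside the support -/
theorem FF_out (H : Num b R κ) {r e : ℝ} (hr : R ≤ r ∨ R ≤ e) : FF b R κ e r = r := by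
  have hb : 0 < 1 - b := by linarith [H.b1]
  rcases hr with h | h
  · have e3 : r ≤ (r - b * R) / (1 - b) := by
      rw [le_div_iff₀ hb]; nlinarith [H.b0]
    unfold FF
    have h0 : 0 ≤ b * max 0 (R - e) := mul_nonneg H.b0.le (le_max_left _ _)
    rw [min_eq_left (e3.trans (le_max_right _ _)), max_eq_right (by linarith)]
  · unfold FF
    rw [max_eq_left (by linarith : R - e ≤ 0), mul_zero, sub_zero]
    exact max_eq_left (min_le_left _ _)

/-- **the inverse of the collapse off the plane** -/
theorem FF_inv (H : Num b R 0) {r e : ℝ} (hr : 0 ≤ r) (hs : 0 < FF b R 0 e r) :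
    r = FF b R 0 e r + b * max 0 (R - max (FF b R 0 e r) e) := by
  have hb : 0 < 1 - b := by linarith [H.b1]
  have hb0 := H.b0
  by_cases hout : R ≤ r ∨ R ≤ e
  · rw [H.FF_out hout]
    rcases hout with h | h
    · rw [max_eq_left (by have := le_max_left r e; linarith : R - max r e ≤ 0)]; ring
    · rw [max_eq_left (by have := le_max_right r e; linarith : R - max r e ≤ 0)]; ring
  · push Not at hout
    obtain ⟨h1, h2⟩ := hout
    -- the value
    have k1 : (r - b * R) / (1 - b) ≤ r := by
      rw [div_le_iff₀ hb]; nlinarith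
    have hF : FF b R 0 e r = max (r - b * (R - e)) (max 0 ((r - b * R) / (1 - b))) := by
      unfold FF
      rw [zero_mul, max_eq_right (by linarith : 0 ≤ R - e), min_eq_right (max_le hr k1)]
    set w := (r - b * R) / (1 - b) with hw
    have hw' : w * (1 - b) = r - b * R := div_mul_cancel₀ _ hb.ne'
    rcases le_total e w with hew | hew
    · -- the value is `w`
      have k2 : r - b * (R - e) ≤ w := by nlinarith
      have k3 : FF b R 0 e r = max 0 w := by
        rw [hF]; exact max_eq_right (k2.trans (le_max_right _ _))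
      have k4 : 0 < w := by
        rw [k3] at hs
        by_contra hcon
        push Not at hcon
        rw [max_eq_left hcon] at hs
        exact lt_irrefl _ hs
      have k5 : FF b R 0 e r = w := by rw [k3, max_eq_right k4.le]
      rw [k5, max_eq_left hew, max_eq_right (by nlinarith : 0 ≤ R - w)]
      nlinarith
    · -- the value is `r - b (R - e)`
      have k2 : w ≤ r - b * (R - e) := by nlinarith
      have k3 : FF b R 0 e r = max 0 (r - b * (R - e)) := by
        rw [hF]
        rcases le_total 0 (r - b * (R - e)) with h | h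
        · rw [max_eq_right h, max_eq_left (max_le h k2)]
        · rw [max_eq_left h, max_eq_left (k2.trans h), max_eq_right h]
      have k4 : 0 < r - b * (R - e) := by
        rw [k3] at hs
        by_contra hcon
        push Not at hcon
        rw [max_eq_left hcon] at hs
        exact lt_irrefl _ hs
      have k5 : FF b R 0 e r = r - b * (R - e) := by rw [k3, max_eq_right k4.le]
      have k6 : r - b * (R - e) ≤ e := by nlinarith
      rw [k5, max_eq_right k6, max_eq_right (by linarith : 0 ≤ R - e)]
      ring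

/-- the collapse is complete near the plane -/
theorem FF_full (H : Num b R κ) {r e : ℝ} (hr : 0 ≤ r) (h : r ≤ b * (R - max 0 e)) :
    FF b R κ e r = κ * r := by
  have hb : 0 < 1 - b := by linarith [H.b1]
  have h0 : 0 ≤ b * (R - max 0 e) := hr.trans h
  have h1 : 0 ≤ R - max 0 e := by
    by_contra hcon
    push Not at hcon
    nlinarith [H.b0]
  have h2 : R - max 0 e ≤ max 0 (R - e) := by
    refine le_max_of_le_right ?_
    have := le_max_right 0 e
    linarith
  have h3 : r ≤ b * max 0 (R - e) := h.trans (mul_le_mul_of_nonneg_left h2 H.b0.le)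
  have h4 : r ≤ b * R := h.trans (mul_le_mul_of_nonneg_left (by
    have := le_max_left 0 e; linarith) H.b0.le)
  have h5 : (r - b * R) / (1 - b) ≤ 0 := div_nonpos_of_nonpos_of_nonneg (by linarith) hb.le
  have h6 : 0 ≤ κ * r := mul_nonneg H.k0 hr
  have h7 : κ * r ≤ r := by nlinarith [H.k1]
  unfold FF
  rw [max_eq_left (h5.trans h6), min_eq_right h7, max_eq_right (by linarith)]

/-- closeness to the collapse -/
theorem FF_close (H : Num b R κ) {r e : ℝ} (hr : 0 ≤ r) :
    FF b R κ e r ≤ FF b R 0 e r + κ * R ∧ FF b R 0 e r ≤ FF b R κ e r ∧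
      (κ * R ≤ FF b R 0 e r → FF b R κ e r = FF b R 0 e r) := by
  have H0 : Num b R 0 := ⟨H.b0, H.b1, H.R0, le_rfl, one_pos⟩
  rw [H.FF_eq hr]
  have h0 := H0.FF_nonneg (e := e) hr
  have h1 : κ * r ≤ r := by nlinarith [H.k1]
  rcases le_total R r with h | h
  · have h2 : FF b R 0 e r = r := H0.FF_out (Or.inl h)
    rw [h2]
    have : 0 ≤ κ * R := mul_nonneg H.k0 H.R0.le
    refine ⟨max_le (by linarith) (by linarith), le_max_right _ _, fun _ => max_eq_right h1⟩
  · have h3 : κ * r ≤ κ * R := mul_le_mul_of_nonneg_left h H.k0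
    have : 0 ≤ κ * R := mul_nonneg H.k0 H.R0.le
    exact ⟨max_le (by linarith) (by linarith), le_max_right _ _, fun h4 =>
      max_eq_right (h3.trans h4)⟩

end Num

end Vale.Agent.P073.H239
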