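import Vale.Agent.P073.H239.PlateA

/-!
# P073, block B10 (ALIGN-T0): the collapse of the neighbourhood of one plate

The plate is the (degenerate) box `Icc lo hi`, `lo l = hi l`; `pm l lo hi b R κ` is the identity off
its `R`-neighbourhood `bx lo hi R`; for `κ = 0` it maps the `b R`-neighbourhood to the plane.
-/

open Set Metric Topology Filter WithLp MeasureTheory Matrix

namespace Vale.Agent.P073.H239

open _root_.P073
open _root_.P073.H236 (bmp gi VD vc vc_ne vc_same vd_bmp supp_vc kbox Supp cl abs_bmp_sub_le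
  bmp_nonneg)
open Vale.Agent.P073.St (V)
open Vale.Agent.P073.H851 (M3 bddM)

/-- the six affine functions -/
def fn (lo hi : V) (p : Fin 3 × Bool) (y : V) : ℝ := if p.2 then y p.1 - hi p.1 else lo p.1 - y p.1

/-- the distance to the plate -/
noncomputable def DD (lo hi : V) (y : V) : ℝ :=
  (Finset.univ : Finset (Fin 3 × Bool)).sup' Finset.univ_nonempty fun p => fn lo hi p y

/-- the distance to the plate in the directions of the plate -/
noncomputable def dd (l : Fin 3) (lo hi : V) (y : V) : ℝ :=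
  (Finset.univ : Finset (Fin 3 × Bool)).sup' Finset.univ_nonempty fun p =>
    if p.1 = l then 0 else fn lo hi p y

/-- the neighbourhood of the plate -/
def bx (lo hi : V) (R : ℝ) : Set V := {y | DD lo hi y ≤ R}

variable {l : Fin 3} {lo hi : V} {b R κ : ℝ}

theorem fn_le (p : Fin 3 × Bool) (y : V) : fn lo hi p y ≤ DD lo hi y :=
  Finset.le_sup' (fun p => fn lo hi p y) (Finset.mem_univ p)

theorem DD_le {y : V} {a : ℝ} : DD lo hi y ≤ a ↔ ∀ p, fn lo hi p y ≤ a := by
  unfold DD
  rw [Finset.sup'_le_iff]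
  simp

theorem exists_fn (y : V) : ∃ p, fn lo hi p y = DD lo hi y := by
  obtain ⟨p, -, hp⟩ := Finset.exists_mem_eq_sup' (Finset.univ_nonempty :
    (Finset.univ : Finset (Fin 3 × Bool)).Nonempty) (fun p => fn lo hi p y)
  exact ⟨p, hp.symm⟩

theorem dd_nonneg (y : V) : 0 ≤ dd l lo hi y := by
  have := Finset.le_sup' (fun p : Fin 3 × Bool => if p.1 = l then 0 else fn lo hi p y)
    (Finset.mem_univ (l, true))
  simp only [if_true] at this
  exact this

theorem fn_le_dd {p : Fin 3 × Bool} (hp : p.1 ≠ l) (y : V) : fn lo hi p y ≤ dd l lo hi y := by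
  have := Finset.le_sup' (fun p : Fin 3 × Bool => if p.1 = l then 0 else fn lo hi p y)
    (Finset.mem_univ p)
  simp only [if_neg hp] at this
  exact this

theorem dd_le {y : V} {a : ℝ} (ha : 0 ≤ a) : dd l lo hi y ≤ a ↔ ∀ p, p.1 ≠ l → fn lo hi p y ≤ a := by
  unfold dd
  rw [Finset.sup'_le_iff]
  constructor
  · intro h p hp
    simpa [hp] using h p (Finset.mem_univ p)
  · intro h p _
    split_ifs with hp
    · exact ha
    · exact h p hp

theorem DD_eq (h : lo l = hi l) (y : V) : DD lo hi y = max |y l - lo l| (dd l lo hi y) := by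
  apply le_antisymm
  · rw [DD_le]
    intro p
    by_cases hp : p.1 = l
    · refine le_max_of_le_left ?_
      unfold fn
      rw [hp, ← h]
      split_ifs
      · exact le_abs_self _
      · rw [abs_sub_comm]; exact le_abs_self _
    · exact le_max_of_le_right (fn_le_dd hp y)
  · have h1 := fn_le (lo := lo) (hi := hi) (l, true) y
    have h2 := fn_le (lo := lo) (hi := hi) (l, false) y
    simp only [fn, if_true, Bool.false_eq_true, if_false] at h1 h2
    rw [← h] at h1
    have h3 : |y l - lo l| ≤ DD lo hi y := by rw [abs_le]; constructor <;> linarith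
    refine max_le h3 ((dd_le ((abs_nonneg _).trans h3)).2 fun p _ => fn_le p y)

theorem dd_congr {y y' : V} (h : ∀ i, i ≠ l → y i = y' i) : dd l lo hi y = dd l lo hi y' := by
  unfold dd
  refine Finset.sup'_congr _ rfl fun p _ => ?_
  by_cases hp : p.1 = l
  · rw [if_pos hp, if_pos hp]
  · rw [if_neg hp, if_neg hp]
    unfold fn
    rw [h _ hp]

theorem DD_cont : Continuous (DD lo hi) := by
  unfold DD fn
  refine Continuous.finset_sup'_apply _ fun p _ => ?_
  split_ifs <;> fun_prop

theorem bx_eq (lo hi : V) (R : ℝ) : bx lo hi R = Icc (fun i => lo i - R) (fun i => hi i + R) := by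
  ext y
  simp only [bx, mem_ofPred_eq, DD_le, mem_Icc, Pi.le_def]
  constructor
  · intro h
    constructor
    · intro i
      have := h (i, false)
      simp only [fn, Bool.false_eq_true, if_false] at this
      linarith
    · intro i
      have := h (i, true)
      simp only [fn, if_true] at this
      linarith
  · rintro ⟨h1, h2⟩ ⟨i, s⟩
    have a := h1 i
    have b := h2 i
    cases s
    · simp only [fn, Bool.false_eq_true, if_false]; linarith
    · simp only [fn, if_true]; linarith

theorem isCompact_bx : IsCompact (bx lo hi R) := by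
  rw [bx_eq]; exact isCompact_Icc

theorem bmp_eq (hR : 0 < R) (y : V) :
    bmp l lo hi (fun _ => R) (b * R) y = b * max 0 (R - dd l lo hi y) := by
  unfold bmp
  rw [mul_assoc]
  congr 1
  have h1 : (Finset.univ.inf' ⟨l, Finset.mem_univ l⟩ fun i => gi l lo hi (fun _ => R) i y) =
      1 - dd l lo hi y / R := by
    apply le_antisymm
    · rw [le_sub_iff_add_le, ← le_sub_iff_add_le', div_le_iff₀ hR]
      have h0 : Finset.univ.inf' ⟨l, Finset.mem_univ l⟩ (fun i => gi l lo hi (fun _ => R) i y) ≤ 1 :=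
        (Finset.inf'_le _ (Finset.mem_univ l)).trans (by simp [gi])
      rw [dd_le (mul_nonneg (by linarith) hR.le)]
      rintro ⟨i, s⟩ hi'
      have h2 := Finset.inf'_le (fun i => gi l lo hi (fun _ => R) i y) (Finset.mem_univ i)
      simp only at hi'
      have h2' : gi l lo hi (fun _ => R) i y =
          min 1 (min (1 + (y i - lo i) / R) (1 + (hi i - y i) / R)) := by
        simp only [gi, if_neg hi']
      have h3 := (h2.trans h2'.le).trans (min_le_right _ _)
      cases s
      · simp only [fn, Bool.false_eq_true, if_false]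
        have h4 := h3.trans (min_le_left _ _)
        have h5 : (y i - lo i) / R * R = y i - lo i := div_mul_cancel₀ _ hR.ne'
        nlinarith
      · simp only [fn, if_true]
        have h4 := h3.trans (min_le_right _ _)
        have h5 : (hi i - y i) / R * R = hi i - y i := div_mul_cancel₀ _ hR.ne'
        nlinarith
    · refine Finset.le_inf' _ _ fun i _ => ?_
      have h0 : 0 ≤ dd l lo hi y / R := div_nonneg (dd_nonneg y) hR.le
      unfold gi
      split_ifs with hi'
      · linarith
      · refine le_min (by linarith) (le_min ?_ ?_)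
        · have := fn_le_dd (lo := lo) (hi := hi) (l := l) (p := (i, false)) hi' y
          simp only [fn, Bool.false_eq_true, if_false] at this
          have h5 : (lo i - y i) / R ≤ dd l lo hi y / R := div_le_div_of_nonneg_right this hR.le
          have h6 : (y i - lo i) / R = -((lo i - y i) / R) := by ring
          linarith
        · have := fn_le_dd (lo := lo) (hi := hi) (l := l) (p := (i, true)) hi' y
          simp only [fn, if_true] at this
          have h5 : (y i - hi i) / R ≤ dd l lo hi y / R := div_le_div_of_nonneg_right this hR.le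
          have h6 : (hi i - y i) / R = -((y i - hi i) / R) := by ring
          linarith
  rw [h1, mul_max_of_nonneg _ _ hR.le, mul_zero]
  congr 1
  field_simp

/-- **the map**: squeeze (`0 < κ`), collapse (`κ = 0`) -/
noncomputable def pm (l : Fin 3) (lo hi : V) (b R κ : ℝ) : V → V :=
  vc l (pk (lo l) b R κ) (bmp l lo hi (fun _ => R) (b * R))

theorem pm_ne {i : Fin 3} (h : i ≠ l) (y : V) : pm l lo hi b R κ y i = y i := vc_ne h y

theorem dd_pm (y : V) : dd l lo hi (pm l lo hi b R κ y) = dd l lo hi y :=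
  dd_congr fun _ hi' => pm_ne hi' y

theorem pm_up (H : Num b R κ) {y : V} (hy : lo l ≤ y l) :
    pm l lo hi b R κ y l = lo l + FF b R κ (dd l lo hi y) (y l - lo l) := by
  unfold pm
  rw [vc_same, bmp_eq H.R0, ← H.cl_up (by linarith), add_sub_cancel]

theorem pm_down (H : Num b R κ) {y : V} (hy : y l ≤ lo l) :
    pm l lo hi b R κ y l = lo l - FF b R κ (dd l lo hi y) (lo l - y l) := by
  unfold pm
  rw [vc_same, bmp_eq H.R0, ← H.cl_down (by linarith)]
  congr 1
  ring

theorem Num.zero (H : Num b R κ) : Num b R 0 := ⟨H.b0, H.b1, H.R0, le_rfl, one_pos⟩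

theorem vd_pm (H : Num b R κ) : VD l (pk (lo l) b R κ) (bmp l lo hi (fun _ => R) (b * R)) :=
  vd_bmp (mul_nonneg H.b0.le H.R0.le) (H236.pl_continuous _ _ _) (H236.pl_conicalOn _ _ _)
    (H236.pl_monotone H.inc_px H.mono_pv)

theorem pm_cont (H : Num b R κ) : Continuous (pm l lo hi b R κ) := (vd_pm H).continuous

theorem kbox_eq_bx (h : lo l = hi l) :
    kbox l (lo l - R) (lo l + R) lo hi (fun _ => R) = bx lo hi R := by
  rw [bx_eq]
  ext y
  simp only [kbox, mem_ofPred_eq, mem_Icc, Pi.le_def]
  constructor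
  · rintro ⟨⟨h1, h2⟩, h3⟩
    constructor
    · intro i
      by_cases hi' : i = l
      · subst hi'; exact h1
      · exact (h3 i hi').1
    · intro i
      by_cases hi' : i = l
      · subst hi'; rw [← h]; exact h2
      · exact (h3 i hi').2
  · rintro ⟨h1, h2⟩
    exact ⟨⟨h1 l, by rw [h]; exact h2 l⟩, fun i _ => ⟨h1 i, h2 i⟩⟩

theorem pk_out (H : Num b R κ) {c t : ℝ} (ht : t ≤ c - R ∨ c + R ≤ t) : pk c b R κ t = t := by
  unfold pk
  rcases ht with ht | ht
  · rw [H236.pl_of_le H.inc_px (by simpa only [px] using ht)]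
    simp only [px, pv]; ring
  · rw [H236.pl_of_ge H.inc_px (by simpa only [px] using ht)]
    simp only [px, pv]; ring

theorem supp_pm (H : Num b R κ) (h : lo l = hi l) : Supp (pm l lo hi b R κ) (bx lo hi R) := by
  have h1 := supp_vc (j := l) (lo := lo) (hi := hi) (r := fun _ => R) (C := b * R)
    (k := pk (lo l) b R κ) (al := lo l - R) (be := lo l + R) (mul_nonneg H.b0.le H.R0.le)
    (fun _ => H.R0) (H236.pl_continuous _ _ _) (H236.pl_conicalOn _ _ _)
    (H236.pl_monotone H.inc_px H.mono_pv) (fun t ht => pk_out H ht) (by linarith [H.R0])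
  rw [kbox_eq_bx h] at h1
  exact h1

/-- the homeomorphism (`0 < κ`) -/
noncomputable def ph (H : Num b R κ) (hk : 0 < κ) (l : Fin 3) (lo hi : V) :
    ConHomeo (univ : Set V) (univ : Set V) :=
  (vd_pm (l := l) (lo := lo) (hi := hi) H).homeo
    (vd_bmp (mul_nonneg H.b0.le H.R0.le) (H236.pl_continuous _ _ _) (H236.pl_conicalOn _ _ _)
      (H236.pl_strictMono (H.inc_pv hk) H.inc_px).monotone)
    (H236.pl_strictMono H.inc_px (H.inc_pv hk)) (H236.pl_strictMono (H.inc_pv hk) H.inc_px)
    (H236.pl_pl H.inc_px (H.inc_pv hk)) (H236.pl_pl (H.inc_pv hk) H.inc_px) isOpen_univ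
    (fun _ _ _ _ => mem_univ _)

theorem ph_toFun (H : Num b R κ) (hk : 0 < κ) (l : Fin 3) (lo hi : V) :
    (ph H hk l lo hi).toFun = pm l lo hi b R κ := rfl

/-- the Lipschitz constant -/
theorem pm_lip (H : Num b R κ) (y y' : V) :
    ‖toLp 2 (pm l lo hi b R κ y - pm l lo hi b R κ y')‖ ≤ (1 + 3 * b) * ‖toLp 2 (y - y')‖ := by
  have hb := H.b0
  set w := pm l lo hi b R κ y - pm l lo hi b R κ y' with hw
  set N := ‖toLp 2 (y - y')‖ with hN
  have hN0 : 0 ≤ N := norm_nonneg _
  have hδ : ‖y - y'‖ ≤ N := norm_le_toLp _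
  have h1 : ∀ i, i ≠ l → w i = (y - y') i := fun i hi' => by
    rw [hw, Pi.sub_apply, pm_ne hi', pm_ne hi', Pi.sub_apply]
  have h2 : |w l| ≤ (1 + 2 * b) * |(y - y') l| + b * N := by
    rw [hw, Pi.sub_apply]
    refine (VD.abs_vc_sub_vc_le (L := 1 + 2 * b) (by linarith) (H.pk_lip _ _)).trans ?_
    have h3 := abs_bmp_sub_le (j := l) (lo := lo) (hi := hi) (r := fun _ => R) (C := b * R)
      (mul_nonneg hb.le H.R0.le) (δ := R) (d := ‖y - y'‖) H.R0 (fun _ => le_rfl) (y := y) (y' := y')
      (fun i _ => norm_le_pi_norm (y - y') i) (norm_nonneg _)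
    have h4 : b * R * (‖y - y'‖ / R) = b * ‖y - y'‖ := by
      have := H.R0.ne'
      field_simp
    rw [h4] at h3
    have h5 : b * ‖y - y'‖ ≤ b * N := mul_le_mul_of_nonneg_left hδ hb.le
    exact add_le_add le_rfl (h3.trans h5)
  have hNsq : N ^ 2 = ((y - y') l) ^ 2 + ∑ i ∈ Finset.univ.erase l, ((y - y') i) ^ 2 := by
    rw [hN, EuclideanSpace.norm_sq_eq, ← Finset.add_sum_erase _ _ (Finset.mem_univ l)]
    simp only [Real.norm_eq_abs, sq_abs]
  have hwsq : ‖toLp 2 w‖ ^ 2 = (w l) ^ 2 + ∑ i ∈ Finset.univ.erase l, ((y - y') i) ^ 2 := by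
    rw [EuclideanSpace.norm_sq_eq, ← Finset.add_sum_erase _ _ (Finset.mem_univ l)]
    simp only [Real.norm_eq_abs, sq_abs]
    congr 1
    refine Finset.sum_congr rfl fun i hi' => ?_
    rw [h1 i (Finset.ne_of_mem_erase hi')]
  set S := ∑ i ∈ Finset.univ.erase l, ((y - y') i) ^ 2 with hS
  have hS0 : 0 ≤ S := Finset.sum_nonneg fun i _ => sq_nonneg _
  have hlN : |(y - y') l| ≤ N := (norm_le_pi_norm (y - y') l).trans hδ
  have key : ‖toLp 2 w‖ ^ 2 ≤ ((1 + 3 * b) * N) ^ 2 := by
    rw [hwsq, ← sq_abs (w l)]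
    have e1 : |w l| ^ 2 ≤ ((1 + 2 * b) * |(y - y') l| + b * N) ^ 2 := by
      gcongr
    have e2 : |(y - y') l| ^ 2 = ((y - y') l) ^ 2 := sq_abs _
    set a := |(y - y') l| with ha
    have ha0 : 0 ≤ a := abs_nonneg _
    have e3 : S = N ^ 2 - a ^ 2 := by rw [hNsq, e2]; ring
    rw [e3]
    have e4 : ((1 + 2 * b) * a + b * N) ^ 2 ≤ (1 + 2 * b) ^ 2 * a ^ 2 +
        2 * ((1 + 2 * b) * N) * (b * N) + (b * N) ^ 2 := by
      have : (1 + 2 * b) * a ≤ (1 + 2 * b) * N := by gcongr
      have h6 : 0 ≤ b * N := by positivity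
      nlinarith
    have e5 : a ^ 2 ≤ N ^ 2 := by gcongr
    have e6 : 1 ≤ (1 + 2 * b) ^ 2 := by nlinarith
    nlinarith
  exact abs_le_of_sq_le_sq' key (by positivity) |>.2

/-- **closeness of the squeeze and of the collapse** -/
theorem pm_close (H : Num b R κ) (y : V) :
    ‖pm l lo hi b R κ y - pm l lo hi b R 0 y‖ ≤ κ * R ∧
      (κ * R ≤ |pm l lo hi b R 0 y l - lo l| → pm l lo hi b R κ y = pm l lo hi b R 0 y) := by
  have hkR : 0 ≤ κ * R := mul_nonneg H.k0 H.R0.le
  have key : |pm l lo hi b R κ y l - pm l lo hi b R 0 y l| ≤ κ * R ∧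
      (κ * R ≤ |pm l lo hi b R 0 y l - lo l| → pm l lo hi b R κ y l = pm l lo hi b R 0 y l) := by
    rcases le_total (lo l) (y l) with h | h
    · rw [pm_up H h, pm_up H.zero h]
      obtain ⟨h1, h2, h3⟩ := H.FF_close (e := dd l lo hi y) (sub_nonneg.2 h)
      have h4 := H.zero.FF_nonneg (e := dd l lo hi y) (sub_nonneg.2 h)
      constructor
      · rw [abs_le]; constructor <;> linarith
      · intro h5
        rw [add_sub_cancel_left, abs_of_nonneg h4] at h5
        rw [h3 h5]
    · rw [pm_down H h, pm_down H.zero h]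
      obtain ⟨h1, h2, h3⟩ := H.FF_close (e := dd l lo hi y) (sub_nonneg.2 h)
      have h4 := H.zero.FF_nonneg (e := dd l lo hi y) (sub_nonneg.2 h)
      constructor
      · rw [abs_le]; constructor <;> linarith
      · intro h5
        rw [sub_sub_cancel_left, abs_neg, abs_of_nonneg h4] at h5
        rw [h3 h5]
  constructor
  · rw [pi_norm_le_iff_of_nonneg hkR]
    intro i
    by_cases hi' : i = l
    · subst hi'; exact key.1
    · rw [Pi.sub_apply, pm_ne hi', pm_ne hi', sub_self, norm_zero]; exact hkR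
  · intro h
    ext i
    by_cases hi' : i = l
    · subst hi'; exact key.2 h
    · rw [pm_ne hi', pm_ne hi']

/-- **the inverse of the collapse** -/
theorem pm_inv (H : Num b R κ) (h : lo l = hi l) {v u : V} (hu : pm l lo hi b R 0 v = u)
    (hne : u l ≠ lo l) : ∃ σ : ℝ, (σ = 1 ∨ σ = -1) ∧ 0 < σ * (u l - lo l) ∧
      v = Function.update u l (u l + σ * (b * max 0 (R - DD lo hi u))) := by
  have hd : dd l lo hi v = dd l lo hi u := by rw [← hu, dd_pm]
  have hoff : ∀ i, i ≠ l → v i = u i := fun i hi' => by rw [← hu, pm_ne hi']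
  rw [DD_eq h]
  rcases le_total (lo l) (v l) with hv | hv
  · have h1 := pm_up (hi := hi) H.zero hv
    rw [hu, hd] at h1
    have h2 := H.zero.FF_nonneg (e := dd l lo hi u) (sub_nonneg.2 hv)
    have h3 : 0 < FF b R 0 (dd l lo hi u) (v l - lo l) := by
      refine lt_of_le_of_ne h2 fun h0 => hne ?_
      rw [h1, ← h0, add_zero]
    refine ⟨1, Or.inl rfl, by linarith, ?_⟩
    have h4 := H.zero.FF_inv (sub_nonneg.2 hv) h3
    have h5 : |u l - lo l| = FF b R 0 (dd l lo hi u) (v l - lo l) := by
      rw [h1, add_sub_cancel_left, abs_of_nonneg h2]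
    ext i
    by_cases hi' : i = l
    · subst hi'
      rw [Function.update_self, h5]
      linarith
    · rw [Function.update_of_ne hi', hoff i hi']
  · have h1 := pm_down (hi := hi) H.zero hv
    rw [hu, hd] at h1
    have h2 := H.zero.FF_nonneg (e := dd l lo hi u) (sub_nonneg.2 hv)
    have h3 : 0 < FF b R 0 (dd l lo hi u) (lo l - v l) := by
      refine lt_of_le_of_ne h2 fun h0 => hne ?_
      rw [h1, ← h0, sub_zero]
    refine ⟨-1, Or.inr rfl, by linarith, ?_⟩
    have h4 := H.zero.FF_inv (sub_nonneg.2 hv) h3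
    have h5 : |u l - lo l| = FF b R 0 (dd l lo hi u) (lo l - v l) := by
      rw [h1, sub_sub_cancel_left, abs_neg, abs_of_nonneg h2]
    ext i
    by_cases hi' : i = l
    · subst hi'
      rw [Function.update_self, h5]
      linarith
    · rw [Function.update_of_ne hi', hoff i hi']

theorem pm_mem_iff (H : Num b R κ) (h : lo l = hi l) (v : V) :
    pm l lo hi b R κ v ∈ bx lo hi R ↔ v ∈ bx lo hi R := by
  constructor
  · intro h1
    by_contra h2
    rw [(supp_pm H h).id v h2] at h1
    exact h2 h1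
  · exact fun h1 => (supp_pm H h).maps h1

/-- in the core the collapse is complete -/
theorem pm_core (H : Num b R κ) {v : V} (hv : |v l - lo l| ≤ b * (R - dd l lo hi v)) :
    pm l lo hi b R κ v = Function.update v l (lo l + κ * (v l - lo l)) := by
  ext i
  by_cases hi' : i = l
  · subst hi'
    rw [Function.update_self]
    have hd := dd_nonneg (l := i) (lo := lo) (hi := hi) v
    rcases le_total (lo i) (v i) with h | h
    · rw [pm_up H h, H.FF_full (sub_nonneg.2 h)]
      rw [max_eq_right hd]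
      rwa [abs_of_nonneg (sub_nonneg.2 h)] at hv
    · rw [pm_down H h, H.FF_full (sub_nonneg.2 h)]
      · ring
      · rw [max_eq_right hd]
        rwa [abs_sub_comm, abs_of_nonneg (sub_nonneg.2 h)] at hv
  · rw [Function.update_of_ne hi', pm_ne hi']

end Vale.Agent.P073.H239
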