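import Vale.Agent.P073.H239.PlateB

/-!
# P073, block B10 (ALIGN-T0): the affine pieces of the inverse of the collapse of a plate
-/

open Set Metric Topology Filter WithLp MeasureTheory Matrix

namespace Vale.Agent.P073.H239

open _root_.P073
open _root_.P073.H236 (Supp)
open Vale.Agent.P073.St (V)
open Vale.Agent.P073.H851 (M3 bddM)

variable {l : Fin 3} {lo hi : V} {b R κ : ℝ}

/-- the sign of the linear part of `fn p` -/
def tau (p : Fin 3 × Bool) : ℝ := if p.2 then 1 else -1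

/-- the constant of `fn p` -/
def kst (lo hi : V) (p : Fin 3 × Bool) : ℝ := if p.2 then hi p.1 else -lo p.1

theorem fn_eq (p : Fin 3 × Bool) (y : V) : fn lo hi p y = tau p * y p.1 - kst lo hi p := by
  unfold fn tau kst
  split_ifs <;> ring

theorem abs_tau (p : Fin 3 × Bool) : |tau p| = 1 := by
  unfold tau; split_ifs <;> simp

/-- the affine maps -/
noncomputable def am (l : Fin 3) (lo hi : V) (b R σ : ℝ) (p : Fin 3 × Bool) : M3 × V :=
  (1 - Matrix.single l p.1 (σ * b * tau p), Pi.single l (-(σ * b * (R + kst lo hi p))))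

theorem am_mulVec (σ : ℝ) (p : Fin 3 × Bool) (y : V) :
    (am l lo hi b R σ p).1 *ᵥ y = y - Pi.single l (σ * b * tau p * y p.1) := by
  unfold am
  rw [Matrix.sub_mulVec, Matrix.one_mulVec, Matrix.single_mulVec]
  rfl

theorem am_apply (σ : ℝ) (p : Fin 3 × Bool) (u : V) :
    (am l lo hi b R σ p).1 *ᵥ u - (am l lo hi b R σ p).2 =
      Function.update u l (u l + σ * (b * (R - fn lo hi p u))) := by
  rw [am_mulVec]
  ext i
  by_cases hi' : i = l
  · subst hi'
    rw [Function.update_self, fn_eq]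
    simp only [am, Pi.sub_apply, Pi.single_eq_same]
    ring
  · rw [Function.update_of_ne hi']
    simp only [am, Pi.sub_apply, Pi.single_eq_of_ne hi']
    ring

theorem am_mem (hb0 : 0 < b) (hb1 : b ≤ 1 / 2) {σ : ℝ} (hσ : σ = 1 ∨ σ = -1)
    (p : Fin 3 × Bool) : (am l lo hi b R σ p).1 ∈ bddM (1 + 2 * b) := by
  have hσ' : |σ| = 1 := by rcases hσ with h | h <;> simp [h]
  have hz : ∀ y : V, ‖(Pi.single l (σ * b * tau p * y p.1) : V)‖ ≤ b * ‖y‖ := by
    intro y
    rw [Pi.norm_single, Real.norm_eq_abs, abs_mul, abs_mul, abs_mul, hσ', abs_tau,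
      abs_of_pos hb0]
    have : |y p.1| ≤ ‖y‖ := norm_le_pi_norm y p.1
    nlinarith
  constructor
  · intro y
    rw [am_mulVec]
    refine (norm_sub_le _ _).trans ?_
    have := hz y
    nlinarith [norm_nonneg y]
  · intro y
    rw [am_mulVec]
    have h1 := hz y
    have h2 := norm_sub_norm_le y (Pi.single l (σ * b * tau p * y p.1) : V)
    set z : V := Pi.single l (σ * b * tau p * y p.1) with hz'
    have h3 : (1 - b) * ‖y‖ ≤ ‖y - z‖ := by linarith
    have h4 : 1 ≤ (1 + 2 * b) * (1 - b) := by nlinarith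
    calc ‖y‖ ≤ (1 + 2 * b) * (1 - b) * ‖y‖ := by nlinarith [norm_nonneg y]
      _ = (1 + 2 * b) * ((1 - b) * ‖y‖) := by ring
      _ ≤ (1 + 2 * b) * ‖y - z‖ := by gcongr

theorem one_mem_bddM (hb0 : 0 < b) : (1 : M3) ∈ bddM (1 + 2 * b) := by
  constructor <;>
  · intro y
    rw [Matrix.one_mulVec]
    nlinarith [norm_nonneg y]

/-- the kinks: boundary of the box, and equality of two of the six functions -/
def kk (lo hi : V) (R : ℝ) : Set V :=
  {u | u ∈ bx lo hi R ∧ (DD lo hi u = R ∨ ∃ p q, p ≠ q ∧ fn lo hi p u = fn lo hi q u)}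

theorem fn_cont (p : Fin 3 × Bool) : Continuous (fn lo hi p) := by
  unfold fn; split_ifs <;> fun_prop

theorem isClosed_kk : IsClosed (kk lo hi R) := by
  have h1 : IsClosed {u : V | ∃ p q : Fin 3 × Bool, p ≠ q ∧ fn lo hi p u = fn lo hi q u} := by
    have : {u : V | ∃ p q : Fin 3 × Bool, p ≠ q ∧ fn lo hi p u = fn lo hi q u} =
        ⋃ p : Fin 3 × Bool, ⋃ q : Fin 3 × Bool, {u | p ≠ q ∧ fn lo hi p u = fn lo hi q u} := by
      ext u; simp
    rw [this]
    refine isClosed_iUnion_of_finite fun p => isClosed_iUnion_of_finite fun q => ?_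
    by_cases hpq : p = q
    · simp [hpq]
    · have : {u : V | p ≠ q ∧ fn lo hi p u = fn lo hi q u} = {u | fn lo hi p u = fn lo hi q u} := by
        ext u; simp [hpq]
      rw [this]
      exact isClosed_eq (fn_cont p) (fn_cont q)
  have h2 : IsClosed {u : V | DD lo hi u = R} := isClosed_eq DD_cont continuous_const
  have h3 : kk lo hi R = bx lo hi R ∩ ({u | DD lo hi u = R} ∪
      {u : V | ∃ p q : Fin 3 × Bool, p ≠ q ∧ fn lo hi p u = fn lo hi q u}) := rfl
  rw [h3]
  exact isCompact_bx.isClosed.inter (h2.union h1)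

theorem plane_sub_kk (h : lo l = hi l) {u : V} (hu : u ∈ bx lo hi R) (hl : u l = lo l) :
    u ∈ kk lo hi R := by
  refine ⟨hu, Or.inr ⟨(l, true), (l, false), by simp, ?_⟩⟩
  simp only [fn, if_true, Bool.false_eq_true, if_false]
  rw [← h, hl]

/-- the linear part of `fn p` -/
noncomputable def fl (p : Fin 3 × Bool) : V →L[ℝ] ℝ := tau p • ContinuousLinearMap.proj p.1

theorem fl_apply (p : Fin 3 × Bool) (y : V) : fl p y = tau p * y p.1 := by
  simp [fl]

theorem fl_ne (p : Fin 3 × Bool) : fl p ≠ 0 := by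
  intro h
  have h1 := DFunLike.congr_fun h (Pi.single p.1 1)
  rw [fl_apply, Pi.single_eq_same, mul_one] at h1
  have h2 := abs_tau p
  rw [h1] at h2
  simp at h2

theorem fl_sub_ne {p q : Fin 3 × Bool} (hpq : p ≠ q) : fl p - fl q ≠ 0 := by
  intro h
  have h1 := DFunLike.congr_fun h (Pi.single p.1 1)
  rw [_root_.sub_apply, fl_apply, fl_apply, Pi.single_eq_same, mul_one,
    _root_.zero_apply] at h1
  by_cases hi' : q.1 = p.1
  · rw [hi', Pi.single_eq_same, mul_one] at h1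
    have h2 : p.2 ≠ q.2 := fun h3 => hpq (Prod.ext hi'.symm h3)
    unfold tau at h1
    rcases hp : p.2 <;> rcases hq : q.2
    · exact h2 (hp.trans hq.symm)
    · simp [hp, hq] at h1; norm_num at h1
    · simp [hp, hq] at h1
    · exact h2 (hp.trans hq.symm)
  · rw [Pi.single_eq_of_ne hi', mul_zero, sub_zero] at h1
    have h2 := abs_tau p
    rw [h1] at h2
    simp at h2

/-- **the kinks lie in 36 planes** -/
theorem kk_planes (lo hi : V) (R : ℝ) : ∃ s : Finset ((V →L[ℝ] ℝ) × ℝ), s.card ≤ 36 ∧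
    (∀ q ∈ s, q.1 ≠ 0) ∧ ∀ u ∈ kk lo hi R, ∃ q ∈ s, q.1 u = q.2 := by
  classical
  set F : (Fin 3 × Bool) × (Fin 3 × Bool) → (V →L[ℝ] ℝ) × ℝ := fun pq =>
    if pq.1 = pq.2 then (fl pq.1, R + kst lo hi pq.1)
    else (fl pq.1 - fl pq.2, kst lo hi pq.1 - kst lo hi pq.2) with hF
  refine ⟨Finset.univ.image F, ?_, ?_, ?_⟩
  · refine Finset.card_image_le.trans (le_of_eq ?_)
    simp
  · intro q hq
    obtain ⟨pq, -, rfl⟩ := Finset.mem_image.1 hq
    simp only [hF]
    split_ifs with h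
    · exact fl_ne _
    · exact fl_sub_ne h
  · rintro u ⟨-, hu | ⟨p, q, hpq, hu⟩⟩
    · obtain ⟨p, hp⟩ := exists_fn (lo := lo) (hi := hi) u
      refine ⟨_, Finset.mem_image.2 ⟨(p, p), Finset.mem_univ _, rfl⟩, ?_⟩
      simp only [hF, if_true]
      rw [hu, fn_eq] at hp
      rw [fl_apply]; linarith
    · refine ⟨_, Finset.mem_image.2 ⟨(p, q), Finset.mem_univ _, rfl⟩, ?_⟩
      simp only [hF, if_neg hpq]
      rw [fn_eq, fn_eq] at hu
      rw [_root_.sub_apply, fl_apply, fl_apply]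
      linarith

/-- the thirteen affine maps -/
noncomputable def maps13 (l : Fin 3) (lo hi : V) (b R : ℝ) : Finset (M3 × V) := by
  classical
  exact (Finset.univ.image fun q : Bool × (Fin 3 × Bool) =>
    am l lo hi b R (if q.1 then 1 else -1) q.2) ∪ {(1, 0)}

theorem card_maps13 : (maps13 l lo hi b R).card ≤ 13 := by
  classical
  unfold maps13
  refine (Finset.card_union_le _ _).trans ?_
  refine (add_le_add Finset.card_image_le le_rfl).trans (le_of_eq ?_)
  simp

theorem one_mem_maps13 : ((1, 0) : M3 × V) ∈ maps13 l lo hi b R := by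
  classical
  unfold maps13
  exact Finset.mem_union_right _ (Finset.mem_singleton_self _)

theorem am_mem_maps13 {σ : ℝ} (hσ : σ = 1 ∨ σ = -1) (p : Fin 3 × Bool) :
    am l lo hi b R σ p ∈ maps13 l lo hi b R := by
  classical
  unfold maps13
  refine Finset.mem_union_left _ (Finset.mem_image.2 ?_)
  rcases hσ with h | h
  · exact ⟨(true, p), Finset.mem_univ _, by simp [h]⟩
  · exact ⟨(false, p), Finset.mem_univ _, by simp [h]⟩

theorem maps13_bdd (hb0 : 0 < b) (hb1 : b ≤ 1 / 2) {a : M3 × V}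
    (ha : a ∈ maps13 l lo hi b R) : a.1 ∈ bddM (1 + 2 * b) := by
  classical
  unfold maps13 at ha
  rcases Finset.mem_union.1 ha with h | h
  · obtain ⟨q, -, rfl⟩ := Finset.mem_image.1 h
    refine am_mem hb0 hb1 ?_ _
    split_ifs
    · exact Or.inl rfl
    · exact Or.inr rfl
  · rw [Finset.mem_singleton.1 h]
    exact one_mem_bddM hb0

/-- **the inverse is one of the thirteen maps** -/
theorem pm_inv_maps (H : Num b R κ) (h : lo l = hi l) {v u : V} (hu : pm l lo hi b R 0 v = u)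
    (huk : u ∉ kk lo hi R) : ∃ a ∈ maps13 l lo hi b R, v = a.1 *ᵥ u - a.2 ∧
      (u ∉ bx lo hi R → a = (1, 0)) := by
  by_cases hub : u ∈ bx lo hi R
  · have hne : u l ≠ lo l := fun h1 => huk (plane_sub_kk h hub h1)
    obtain ⟨σ, hσ, -, hv⟩ := pm_inv H h hu hne
    obtain ⟨p, hp⟩ := exists_fn (lo := lo) (hi := hi) u
    refine ⟨am l lo hi b R σ p, am_mem_maps13 hσ p, ?_, fun h1 => absurd hub h1⟩
    rw [am_apply, hp, hv, max_eq_right]
    have : DD lo hi u ≤ R := hub
    linarith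
  · refine ⟨(1, 0), one_mem_maps13, ?_, fun _ => rfl⟩
    have : v ∉ bx lo hi R := fun h1 => hub (by rw [← hu]; exact (supp_pm H.zero h).maps h1)
    rw [(supp_pm H.zero h).id v this] at hu
    rw [hu]
    simp

/-- the domain of one affine piece -/
def pc (l : Fin 3) (lo hi : V) (R σ : ℝ) (p : Fin 3 × Bool) : Set V :=
  {u | 0 < σ * (u l - lo l) ∧ fn lo hi p u < R ∧ ∀ q, q ≠ p → fn lo hi q u < fn lo hi p u}

theorem isOpen_pc {σ : ℝ} {p : Fin 3 × Bool} : IsOpen (pc l lo hi R σ p) := by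
  have h1 : IsOpen {u : V | 0 < σ * (u l - lo l)} :=
    isOpen_lt continuous_const (by fun_prop)
  have h2 : IsOpen {u : V | fn lo hi p u < R} := isOpen_lt (fn_cont p) continuous_const
  have h3 : IsOpen {u : V | ∀ q, q ≠ p → fn lo hi q u < fn lo hi p u} := by
    have : {u : V | ∀ q, q ≠ p → fn lo hi q u < fn lo hi p u} =
        ⋂ q : Fin 3 × Bool, {u | q ≠ p → fn lo hi q u < fn lo hi p u} := by
      ext u; simp
    rw [this]
    refine isOpen_iInter_of_finite fun q => ?_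
    by_cases hq : q = p
    · simp [hq]
    · have : {u : V | q ≠ p → fn lo hi q u < fn lo hi p u} =
          {u | fn lo hi q u < fn lo hi p u} := by ext u; simp [hq]
      rw [this]
      exact isOpen_lt (fn_cont q) (fn_cont p)
  exact h1.inter (h2.inter h3)

theorem DD_pc {σ : ℝ} {p : Fin 3 × Bool} {u : V} (hu : u ∈ pc l lo hi R σ p) :
    DD lo hi u = fn lo hi p u := by
  apply le_antisymm _ (fn_le p u)
  rw [DD_le]
  intro q
  by_cases hq : q = p
  · rw [hq]
  · exact (hu.2.2 q hq).le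

/-- on a piece the inverse is affine -/
theorem pm_inv_pc (H : Num b R κ) (h : lo l = hi l) {σ : ℝ} (hσ : σ = 1 ∨ σ = -1)
    {p : Fin 3 × Bool} {v : V} (hu : pm l lo hi b R 0 v ∈ pc l lo hi R σ p) :
    v = (am l lo hi b R σ p).1 *ᵥ (pm l lo hi b R 0 v) - (am l lo hi b R σ p).2 := by
  set u := pm l lo hi b R 0 v with hu'
  have hne : u l ≠ lo l := by
    intro h1
    have := hu.1
    rw [h1, sub_self, mul_zero] at this
    exact lt_irrefl _ this
  obtain ⟨σ', hσ', hpos, hv⟩ := pm_inv H h hu'.symm hne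
  have hσσ : σ' = σ := by
    have h2 := hu.1
    rcases hσ with h3 | h3 <;> rcases hσ' with h4 | h4 <;> rw [h3, h4] <;> rw [h3] at h2 <;>
      rw [h4] at hpos <;> linarith
  have h5 := DD_pc hu
  have h6 := hu.2.1
  rw [am_apply, ← hσσ, hv, h5, max_eq_right (by linarith)]

/-- **preconnected sets off the kinks are in one piece** -/
theorem exists_pc (h : lo l = hi l) {D : Set V} (hD : IsPreconnected D)
    (hk : Disjoint D (kk lo hi R)) {u₀ : V} (hu₀ : u₀ ∈ D) (hB : u₀ ∈ bx lo hi R) :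
    ∃ σ : ℝ, (σ = 1 ∨ σ = -1) ∧ ∃ p, D ⊆ pc l lo hi R σ p := by
  rw [isPreconnected_closed_iff] at hD
  have hk' : ∀ u ∈ D, u ∉ kk lo hi R := fun u hu hu' => Set.disjoint_left.1 hk hu hu'
  -- `D` is in the box
  have h1 : ∀ u ∈ D, DD lo hi u < R := by
    by_contra hcon
    push Not at hcon
    obtain ⟨u₁, hu₁, h2⟩ := hcon
    obtain ⟨u, hu, h3, h4⟩ := hD (bx lo hi R) {u | R ≤ DD lo hi u} isCompact_bx.isClosed
      (isClosed_le continuous_const DD_cont) (fun u _ => le_total (DD lo hi u) R)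
      ⟨u₀, hu₀, hB⟩ ⟨u₁, hu₁, h2⟩
    exact hk' u hu ⟨h3, Or.inl (le_antisymm h3 h4)⟩
  -- the sign
  have h2 : ∃ σ : ℝ, (σ = 1 ∨ σ = -1) ∧ ∀ u ∈ D, 0 < σ * (u l - lo l) := by
    have hne : ∀ u ∈ D, u l ≠ lo l := fun u hu h3 =>
      hk' u hu (plane_sub_kk h (h1 u hu).le h3)
    by_cases hc : ∃ u₁ ∈ D, u₁ l ≤ lo l
    · obtain ⟨u₁, hu₁, h3⟩ := hc
      refine ⟨-1, Or.inr rfl, fun u hu => ?_⟩
      by_contra hcon
      push Not at hcon
      obtain ⟨w, hw, h4, h5⟩ := hD {u | u l ≤ lo l} {u | lo l ≤ u l}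
        (isClosed_le (continuous_apply l) continuous_const)
        (isClosed_le continuous_const (continuous_apply l)) (fun u _ => le_total (u l) (lo l))
        ⟨u₁, hu₁, h3⟩ ⟨u, hu, by show lo l ≤ u l; linarith⟩
      exact hne w hw (le_antisymm h4 h5)
    · push Not at hc
      exact ⟨1, Or.inl rfl, fun u hu => by have := hc u hu; linarith⟩
  obtain ⟨σ, hσ, hs⟩ := h2
  obtain ⟨p, hp⟩ := exists_fn (lo := lo) (hi := hi) u₀
  refine ⟨σ, hσ, p, ?_⟩
  -- the index
  have hdist : ∀ u ∈ D, ∀ q, q ≠ p → fn lo hi q u ≠ fn lo hi p u := fun u hu q hq h3 =>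
    hk' u hu ⟨(h1 u hu).le, Or.inr ⟨q, p, hq, h3⟩⟩
  have hA : IsClosed {u : V | ∀ q, fn lo hi q u ≤ fn lo hi p u} := by
    have : {u : V | ∀ q, fn lo hi q u ≤ fn lo hi p u} =
        ⋂ q : Fin 3 × Bool, {u | fn lo hi q u ≤ fn lo hi p u} := by ext u; simp
    rw [this]
    exact isClosed_iInter fun q => isClosed_le (fn_cont q) (fn_cont p)
  have hA' : IsClosed {u : V | ∃ q, q ≠ p ∧ ∀ q', fn lo hi q' u ≤ fn lo hi q u} := by
    have : {u : V | ∃ q, q ≠ p ∧ ∀ q', fn lo hi q' u ≤ fn lo hi q u} =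
        ⋃ q : Fin 3 × Bool, {u | q ≠ p ∧ ∀ q', fn lo hi q' u ≤ fn lo hi q u} := by
      ext u; simp
    rw [this]
    refine isClosed_iUnion_of_finite fun q => ?_
    by_cases hq : q = p
    · simp [hq]
    · have : {u : V | q ≠ p ∧ ∀ q', fn lo hi q' u ≤ fn lo hi q u} =
          ⋂ q' : Fin 3 × Bool, {u | fn lo hi q' u ≤ fn lo hi q u} := by
        ext u; simp [hq]
      rw [this]
      exact isClosed_iInter fun q' => isClosed_le (fn_cont q') (fn_cont q)
  have h3 : ∀ u ∈ D, ∀ q, fn lo hi q u ≤ fn lo hi p u := by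
    by_contra hcon
    push Not at hcon
    obtain ⟨u₁, hu₁, q₁, hq₁⟩ := hcon
    obtain ⟨q₂, hq₂⟩ := exists_fn (lo := lo) (hi := hi) u₁
    have hne : q₂ ≠ p := by
      intro h4
      rw [h4] at hq₂
      have := fn_le (lo := lo) (hi := hi) q₁ u₁
      linarith
    obtain ⟨w, hw, h4, q, hq, h5⟩ := hD _ _ hA hA' (fun u _ => by
        obtain ⟨q, hq⟩ := exists_fn (lo := lo) (hi := hi) u
        by_cases hqp : q = p
        · left; intro q'; rw [← hqp, hq]; exact fn_le q' u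
        · right; exact ⟨q, hqp, fun q' => by rw [hq]; exact fn_le q' u⟩)
      ⟨u₀, hu₀, fun q => by rw [hp]; exact fn_le q u₀⟩
      ⟨u₁, hu₁, q₂, hne, fun q' => by rw [hq₂]; exact fn_le q' u₁⟩
    exact hdist w hw q hq (le_antisymm (h4 q) (h5 p))
  intro u hu
  exact ⟨hs u hu, (fn_le p u).trans_lt (h1 u hu), fun q hq =>
    lt_of_le_of_ne (h3 u hu q) (hdist u hu q hq)⟩

end Vale.Agent.P073.H239
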